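import Mathlib

/-!
# Zero divisors and extensions: the abstract assembly for kernels with a left Fox calculus

`K` a commutative ring, `G` a group, `N` a normal subgroup, `A = K[G]`, `B = K[G ⧸ N]`.
`T N m` is the additive span of the products `(n_1 - 1) ... (n_m - 1) c` (`n_i ∈ N`, `c ∈ A`), i.e.
the `m`-th power of the kernel of `A → B`.  Assume additive maps `D i : A → A` (`i : X`) and
elements `x i ∈ N` such that

* every `a` in the kernel is a finite sum `∑ (x i - 1) * D i a`,
* `D j ((x i - 1) * a) = a` if `i = j` and `0` otherwise,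
* `D i` maps `T N (m + 1)` into `T N m`,
* an element lying in every `T N m` is zero.

Then `B` without zero divisors implies `A` without zero divisors (`noZero_of_fox`).
-/

namespace Vale.Agent.Lib.P201.Free

open Classical

section Filtration

variable {K : Type*} [CommRing K] {G : Type*} [Group G]

/-- `au g = g - 1` in `K[G]`. -/
noncomputable def au (K : Type*) [CommRing K] {G : Type*} [Group G] (g : G) : MonoidAlgebra K G :=
  MonoidAlgebra.single g (1 : K) - 1

/-- The quotient map `K[G] → K[G ⧸ N]`. -/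
noncomputable def proj (K : Type*) [CommRing K] {G : Type*} [Group G] (N : Subgroup G)
    [N.Normal] : MonoidAlgebra K G →+* MonoidAlgebra K (G ⧸ N) :=
  MonoidAlgebra.mapDomainRingHom K (QuotientGroup.mk' N)

/-- `T N m`: the additive span of the products `(n_1 - 1) ... (n_m - 1) c` with `n_i ∈ N`. -/
noncomputable def T (N : Subgroup G) (m : ℕ) : AddSubmonoid (MonoidAlgebra K G) :=
  AddSubmonoid.closure {w | ∃ l : List N, l.length = m ∧ ∃ c : MonoidAlgebra K G,
    w = (l.map (fun n : N => au K (n : G))).prod * c}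

theorem gen_mem_T (N : Subgroup G) (l : List N) (c : MonoidAlgebra K G) :
    (l.map (fun n : N => au K (n : G))).prod * c ∈ T (K := K) N l.length :=
  AddSubmonoid.subset_closure ⟨l, rfl, c, rfl⟩

theorem mem_T_zero (N : Subgroup G) (a : MonoidAlgebra K G) : a ∈ T (K := K) N 0 := by
  have h := gen_mem_T (K := K) N [] a
  simpa using h

theorem au_mul_mem_T_one (N : Subgroup G) (n : G) (hn : n ∈ N) (c : MonoidAlgebra K G) :
    au K n * c ∈ T (K := K) N 1 := by
  have h := gen_mem_T (K := K) N [⟨n, hn⟩] c
  simpa using h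

theorem proj_single (N : Subgroup G) [N.Normal] (g : G) (r : K) :
    proj K N (MonoidAlgebra.single g r)
      = MonoidAlgebra.single (QuotientGroup.mk g : G ⧸ N) r := by
  change MonoidAlgebra.mapDomain (fun g : G => (QuotientGroup.mk g : G ⧸ N))
    (MonoidAlgebra.single g r) = _
  rw [MonoidAlgebra.mapDomain_single]

theorem proj_au (N : Subgroup G) [N.Normal] (n : G) (hn : n ∈ N) : proj K N (au K n) = 0 := by
  have h1 : (QuotientGroup.mk n : G ⧸ N) = 1 := (QuotientGroup.eq_one_iff n).mpr hn
  rw [au, map_sub, map_one, proj_single, h1, MonoidAlgebra.one_def, sub_self]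

theorem mapDomain_out_eq_zero (N : Subgroup G) (x : MonoidAlgebra K G)
    (hx : MonoidAlgebra.mapDomain (fun g : G => (QuotientGroup.mk g : G ⧸ N)) x = 0) :
    MonoidAlgebra.mapDomain (fun g : G => Quotient.out (QuotientGroup.mk g : G ⧸ N)) x = 0 := by
  have h2 : MonoidAlgebra.mapDomain
      (fun g : G => Quotient.out (QuotientGroup.mk g : G ⧸ N)) x
      = MonoidAlgebra.mapDomain (fun c : G ⧸ N => Quotient.out c)
        (MonoidAlgebra.mapDomain (fun g : G => (QuotientGroup.mk g : G ⧸ N)) x) := by
    apply MonoidAlgebra.coeff_injective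
    simp only [MonoidAlgebra.mapDomain, MonoidAlgebra.coeff_ofCoeff]
    rw [← Finsupp.mapDomain_comp]
    rfl
  rw [h2, hx, MonoidAlgebra.mapDomain_zero]

/-- The kernel of `K[G] → K[G ⧸ N]` is contained in `T N 1`. -/
theorem mem_T_one_of_proj (N : Subgroup G) [N.Normal] (x : MonoidAlgebra K G)
    (hx : proj K N x = 0) : x ∈ T (K := K) N 1 := by
  have key : ∀ y : MonoidAlgebra K G,
      y - MonoidAlgebra.mapDomain
        (fun g : G => Quotient.out (QuotientGroup.mk g : G ⧸ N)) y ∈ T (K := K) N 1 := by
    intro y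
    induction y using MonoidAlgebra.induction_linear with
    | zero =>
      rw [MonoidAlgebra.mapDomain_zero, sub_zero]; exact AddSubmonoid.zero_mem _
    | add y₁ y₂ h₁ h₂ =>
      rw [MonoidAlgebra.mapDomain_add]
      have e : y₁ + y₂ - (MonoidAlgebra.mapDomain
            (fun g : G => Quotient.out (QuotientGroup.mk g : G ⧸ N)) y₁ +
          MonoidAlgebra.mapDomain
            (fun g : G => Quotient.out (QuotientGroup.mk g : G ⧸ N)) y₂)
          = (y₁ - MonoidAlgebra.mapDomain
            (fun g : G => Quotient.out (QuotientGroup.mk g : G ⧸ N)) y₁) +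
            (y₂ - MonoidAlgebra.mapDomain
            (fun g : G => Quotient.out (QuotientGroup.mk g : G ⧸ N)) y₂) := by abel
      rw [e]; exact AddSubmonoid.add_mem _ h₁ h₂
    | single g r =>
      rw [MonoidAlgebra.mapDomain_single]
      set s : G := Quotient.out (QuotientGroup.mk g : G ⧸ N) with hs
      have hmk : (QuotientGroup.mk s : G ⧸ N) = QuotientGroup.mk g := Quotient.out_eq _
      have hz1 : s⁻¹ * g ∈ N := QuotientGroup.eq.mp hmk
      have hz : g * s⁻¹ ∈ N := (Subgroup.Normal.mem_comm_iff inferInstance).mp hz1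
      have e : MonoidAlgebra.single g r - MonoidAlgebra.single s r
          = au K (g * s⁻¹) * MonoidAlgebra.single s r := by
        rw [au, sub_mul, one_mul, MonoidAlgebra.single_mul_single, one_mul, inv_mul_cancel_right]
      rw [e]
      exact au_mul_mem_T_one N _ hz _
  have h := key x
  rwa [mapDomain_out_eq_zero N x hx, sub_zero] at h

theorem proj_eq_zero_of_mem_T_one (N : Subgroup G) [N.Normal] (x : MonoidAlgebra K G)
    (hx : x ∈ T (K := K) N 1) : proj K N x = 0 := by
  refine AddSubmonoid.closure_induction (motive := fun x _ => proj K N x = 0) ?_ ?_ ?_ hx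
  · rintro w ⟨l, hl, c, rfl⟩
    obtain ⟨n, rfl⟩ := List.length_eq_one_iff.mp hl
    simp only [List.map_cons, List.map_nil, List.prod_cons, List.prod_nil, mul_one]
    rw [map_mul, proj_au N _ n.2, zero_mul]
  · exact map_zero _
  · intro a b _ _ ha hb
    rw [map_add, ha, hb, add_zero]

theorem mem_T_one_iff (N : Subgroup G) [N.Normal] (x : MonoidAlgebra K G) :
    x ∈ T (K := K) N 1 ↔ proj K N x = 0 :=
  ⟨proj_eq_zero_of_mem_T_one N x, mem_T_one_of_proj N x⟩

/-- `T N m` is stable under right multiplication. -/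
theorem T_mul_right (N : Subgroup G) (m : ℕ) (y c : MonoidAlgebra K G)
    (hy : y ∈ T (K := K) N m) : y * c ∈ T (K := K) N m := by
  refine AddSubmonoid.closure_induction (motive := fun y _ => y * c ∈ T (K := K) N m)
    ?_ ?_ ?_ hy
  · rintro y ⟨l, hl, c', rfl⟩
    rw [mul_assoc]
    exact AddSubmonoid.subset_closure ⟨l, hl, c' * c, rfl⟩
  · rw [zero_mul]; exact AddSubmonoid.zero_mem _
  · intro a b _ _ ha hb
    rw [add_mul]; exact AddSubmonoid.add_mem _ ha hb

/-- `T N m * T N 1 ⊆ T N (m + 1)`. -/
theorem T_mul_T_one (N : Subgroup G) [N.Normal] (m : ℕ) (y w : MonoidAlgebra K G)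
    (hy : y ∈ T (K := K) N m) (hw : w ∈ T (K := K) N 1) : y * w ∈ T (K := K) N (m + 1) := by
  refine AddSubmonoid.closure_induction (motive := fun y _ => y * w ∈ T (K := K) N (m + 1))
    ?_ ?_ ?_ hy
  · rintro y ⟨l, hl, c, rfl⟩
    have hcw : c * w ∈ T (K := K) N 1 := by
      rw [mem_T_one_iff] at hw ⊢
      rw [map_mul, hw, mul_zero]
    rw [mul_assoc]
    refine AddSubmonoid.closure_induction
      (motive := fun u _ => (l.map (fun n : N => au K (n : G))).prod * u ∈ T (K := K) N (m + 1))
      ?_ ?_ ?_ hcw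
    · rintro u ⟨l', hl', c', rfl⟩
      obtain ⟨n, rfl⟩ := List.length_eq_one_iff.mp hl'
      have h := gen_mem_T (K := K) N (l ++ [n]) c'
      rw [List.length_append, hl, List.length_singleton, List.map_append, List.prod_append,
        mul_assoc] at h
      exact h
    · rw [mul_zero]; exact AddSubmonoid.zero_mem _
    · intro a b _ _ ha hb
      rw [mul_add]; exact AddSubmonoid.add_mem _ ha hb
  · rw [zero_mul]; exact AddSubmonoid.zero_mem _
  · intro a b _ _ ha hb
    rw [add_mul]; exact AddSubmonoid.add_mem _ ha hb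

/-- `T N m * T N k ⊆ T N (m + k)`. -/
theorem T_mul_T (N : Subgroup G) [N.Normal] (m k : ℕ) (y w : MonoidAlgebra K G)
    (hy : y ∈ T (K := K) N m) (hw : w ∈ T (K := K) N k) : y * w ∈ T (K := K) N (m + k) := by
  refine AddSubmonoid.closure_induction (motive := fun w _ => y * w ∈ T (K := K) N (m + k))
    ?_ ?_ ?_ hw
  · rintro w ⟨l, hl, c, rfl⟩
    subst hl
    clear hw
    induction l generalizing y m with
    | nil =>
      simp only [List.map_nil, List.prod_nil, one_mul, List.length_nil, add_zero]
      exact T_mul_right N m y c hy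
    | cons n l ih =>
      simp only [List.map_cons, List.prod_cons, List.length_cons]
      have h1 : y * au K (n : G) ∈ T (K := K) N (m + 1) := by
        have h0 : au K (n : G) ∈ T (K := K) N 1 := by
          have := au_mul_mem_T_one (K := K) N (n : G) n.2 1
          rwa [mul_one] at this
        exact T_mul_T_one N m y _ hy h0
      have h2 := ih (m + 1) (y * au K (n : G)) h1
      have e : m + 1 + l.length = m + (l.length + 1) := by omega
      rw [e] at h2
      have e2 : y * (au K (n : G) * (l.map (fun n : N => au K (n : G))).prod * c)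
          = y * au K (n : G) * ((l.map (fun n : N => au K (n : G))).prod * c) := by
        simp only [mul_assoc]
      rw [e2]
      exact h2
  · rw [mul_zero]; exact AddSubmonoid.zero_mem _
  · intro a b _ _ ha hb
    rw [mul_add]; exact AddSubmonoid.add_mem _ ha hb

/-- `T N m` is a left ideal. -/
theorem mul_mem_T (N : Subgroup G) [N.Normal] (m : ℕ) (c y : MonoidAlgebra K G)
    (hy : y ∈ T (K := K) N m) : c * y ∈ T (K := K) N m := by
  cases m with
  | zero => exact mem_T_zero N _
  | succ m =>
    refine AddSubmonoid.closure_induction (motive := fun y _ => c * y ∈ T (K := K) N (m + 1))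
      ?_ ?_ ?_ hy
    · rintro y ⟨l, hl, c', rfl⟩
      cases l with
      | nil => simp at hl
      | cons n l =>
        simp only [List.length_cons, Nat.add_right_cancel_iff] at hl
        simp only [List.map_cons, List.prod_cons]
        have h1 : c * au K (n : G) ∈ T (K := K) N 1 := by
          rw [mem_T_one_iff, map_mul, proj_au N _ n.2, mul_zero]
        have h2 : (l.map (fun n : N => au K (n : G))).prod * c' ∈ T (K := K) N m :=
          AddSubmonoid.subset_closure ⟨l, hl, c', rfl⟩
        have h3 := T_mul_T N 1 m _ _ h1 h2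
        have e : 1 + m = m + 1 := by omega
        rw [e] at h3
        have e2 : c * (au K (n : G) * (l.map (fun n : N => au K (n : G))).prod * c')
            = c * au K (n : G) * ((l.map (fun n : N => au K (n : G))).prod * c') := by
          simp only [mul_assoc]
        rw [e2]
        exact h3
    · rw [mul_zero]; exact AddSubmonoid.zero_mem _
    · intro a b _ _ ha hb
      rw [mul_add]; exact AddSubmonoid.add_mem _ ha hb

/-- The filtration is decreasing. -/
theorem T_succ_le (N : Subgroup G) [N.Normal] (m : ℕ) (y : MonoidAlgebra K G)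
    (hy : y ∈ T (K := K) N (m + 1)) : y ∈ T (K := K) N m := by
  refine AddSubmonoid.closure_induction (motive := fun y _ => y ∈ T (K := K) N m) ?_ ?_ ?_ hy
  · rintro y ⟨l, hl, c', rfl⟩
    cases l with
    | nil => simp at hl
    | cons n l =>
      simp only [List.length_cons, Nat.add_right_cancel_iff] at hl
      simp only [List.map_cons, List.prod_cons]
      rw [mul_assoc]
      exact mul_mem_T N m _ _ (AddSubmonoid.subset_closure ⟨l, hl, c', rfl⟩)
  · exact AddSubmonoid.zero_mem _
  · intro a b _ _ ha hb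
    exact AddSubmonoid.add_mem _ ha hb

theorem T_le_one (N : Subgroup G) [N.Normal] (m : ℕ) (y : MonoidAlgebra K G)
    (hy : y ∈ T (K := K) N (m + 1)) : y ∈ T (K := K) N 1 := by
  induction m with
  | zero => exact hy
  | succ m ih => exact ih (T_succ_le N (m + 1) y hy)

end Filtration

section Antipode

variable {K : Type*} [CommRing K] {G : Type*} [Group G]

/-- The antipode `∑ r_g g ↦ ∑ r_g g⁻¹` of `K[G]`, as an additive map. -/
noncomputable def anti (K : Type*) [CommRing K] (G : Type*) [Group G] :
    MonoidAlgebra K G →+ MonoidAlgebra K G where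
  toFun := MonoidAlgebra.mapDomain (fun g : G => g⁻¹)
  map_zero' := MonoidAlgebra.mapDomain_zero _
  map_add' := MonoidAlgebra.mapDomain_add _

theorem anti_single (g : G) (r : K) :
    anti K G (MonoidAlgebra.single g r) = MonoidAlgebra.single g⁻¹ r := by
  change MonoidAlgebra.mapDomain (fun g : G => g⁻¹) (MonoidAlgebra.single g r) = _
  rw [MonoidAlgebra.mapDomain_single]

theorem anti_mul (a b : MonoidAlgebra K G) : anti K G (a * b) = anti K G b * anti K G a := by
  induction a using MonoidAlgebra.induction_linear with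
  | zero => rw [zero_mul, map_zero, mul_zero]
  | add a₁ a₂ h₁ h₂ => rw [add_mul, map_add, map_add, mul_add, h₁, h₂]
  | single g r =>
    induction b using MonoidAlgebra.induction_linear with
    | zero => rw [mul_zero, map_zero, zero_mul]
    | add b₁ b₂ h₁ h₂ => rw [mul_add, map_add, map_add, add_mul, h₁, h₂]
    | single h s =>
      rw [MonoidAlgebra.single_mul_single, anti_single, anti_single, anti_single,
        MonoidAlgebra.single_mul_single, mul_inv_rev, mul_comm s r]

theorem anti_anti (a : MonoidAlgebra K G) : anti K G (anti K G a) = a := by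
  induction a using MonoidAlgebra.induction_linear with
  | zero => rw [map_zero, map_zero]
  | add a₁ a₂ h₁ h₂ => rw [map_add, map_add, h₁, h₂]
  | single g r => rw [anti_single, anti_single, inv_inv]

theorem anti_one : anti K G (1 : MonoidAlgebra K G) = 1 := by
  rw [MonoidAlgebra.one_def, anti_single, inv_one]

theorem anti_au (g : G) : anti K G (au K g) = au K g⁻¹ := by
  rw [au, map_sub, anti_single, anti_one, au]

theorem proj_anti (N : Subgroup G) [N.Normal] (a : MonoidAlgebra K G) :
    proj K N (anti K G a) = anti K (G ⧸ N) (proj K N a) := by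
  induction a using MonoidAlgebra.induction_linear with
  | zero => simp only [map_zero]
  | add a₁ a₂ h₁ h₂ => simp only [map_add, h₁, h₂]
  | single g r =>
    rw [anti_single, proj_single, proj_single, anti_single, QuotientGroup.mk_inv]

theorem proj_anti_ne (N : Subgroup G) [N.Normal] (a : MonoidAlgebra K G)
    (ha : proj K N a ≠ 0) : proj K N (anti K G a) ≠ 0 := by
  intro h
  apply ha
  rw [proj_anti] at h
  have h2 := congrArg (anti K (G ⧸ N)) h
  rwa [anti_anti, map_zero] at h2

theorem anti_list_prod_mem (N : Subgroup G) [N.Normal] (l : List N) :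
    anti K G ((l.map (fun n : N => au K (n : G))).prod) ∈ T (K := K) N l.length := by
  induction l with
  | nil =>
    exact mem_T_zero N _
  | cons n l ih =>
    simp only [List.map_cons, List.prod_cons, List.length_cons]
    rw [anti_mul, anti_au]
    have h0 : au K ((n : G)⁻¹) ∈ T (K := K) N 1 := by
      have := au_mul_mem_T_one (K := K) N ((n : G)⁻¹) (N.inv_mem n.2) 1
      rwa [mul_one] at this
    exact T_mul_T_one N l.length _ _ ih h0

/-- The antipode preserves the filtration. -/
theorem anti_mem_T (N : Subgroup G) [N.Normal] (m : ℕ) (a : MonoidAlgebra K G)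
    (ha : a ∈ T (K := K) N m) : anti K G a ∈ T (K := K) N m := by
  refine AddSubmonoid.closure_induction (motive := fun a _ => anti K G a ∈ T (K := K) N m)
    ?_ ?_ ?_ ha
  · rintro y ⟨l, hl, c, rfl⟩
    rw [anti_mul]
    have h := anti_list_prod_mem (K := K) N l
    rw [hl] at h
    exact mul_mem_T N m _ _ h
  · rw [map_zero]; exact AddSubmonoid.zero_mem _
  · intro a b _ _ ha hb
    rw [map_add]; exact AddSubmonoid.add_mem _ ha hb

theorem anti_not_mem_T (N : Subgroup G) [N.Normal] (m : ℕ) (a : MonoidAlgebra K G)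
    (ha : a ∉ T (K := K) N m) : anti K G a ∉ T (K := K) N m := by
  intro h
  apply ha
  have h2 := anti_mem_T N m _ h
  rwa [anti_anti] at h2

end Antipode

section Assembly

variable {K : Type*} [CommRing K] {G : Type*} [Group G]

theorem D_sum {X : Type*} (x : X → G) (D : X → MonoidAlgebra K G →+ MonoidAlgebra K G)
    (hD : ∀ (i j : X) (a : MonoidAlgebra K G), D j (au K (x i) * a) = if i = j then a else 0)
    (s : Finset X) (c : X → MonoidAlgebra K G) (j : X) :
    D j (∑ i ∈ s, au K (x i) * c i) = if j ∈ s then c j else 0 := by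
  rw [map_sum]
  simp only [hD]
  rw [Finset.sum_ite_eq' s j c]

theorem D_mul {X : Type*} (x : X → G) (D : X → MonoidAlgebra K G →+ MonoidAlgebra K G)
    (hD : ∀ (i j : X) (a : MonoidAlgebra K G), D j (au K (x i) * a) = if i = j then a else 0)
    (a b : MonoidAlgebra K G) (s : Finset X) (hs0 : ∀ i, i ∉ s → D i a = 0)
    (hsa : a = ∑ i ∈ s, au K (x i) * D i a) (j : X) : D j (a * b) = D j a * b := by
  have h1 : a * b = ∑ i ∈ s, au K (x i) * (D i a * b) := by
    have h2 : (∑ i ∈ s, au K (x i) * D i a) * b = ∑ i ∈ s, au K (x i) * (D i a * b) := by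
      rw [Finset.sum_mul]
      exact Finset.sum_congr rfl (fun i _ => mul_assoc _ _ _)
    rw [← h2, ← hsa]
  rw [h1, D_sum x D hD s (fun i => D i a * b) j]
  split_ifs with hj
  · rfl
  · rw [hs0 j hj, zero_mul]

/-- Left key lemma: right multiplication by an element outside the kernel preserves the order. -/
theorem key_left (N : Subgroup G) [N.Normal] {X : Type*} (x : X → G) (hx : ∀ i, x i ∈ N)
    (D : X → MonoidAlgebra K G →+ MonoidAlgebra K G)
    (hexp : ∀ a : MonoidAlgebra K G, proj K N a = 0 →
      ∃ s : Finset X, (∀ i, i ∉ s → D i a = 0) ∧ a = ∑ i ∈ s, au K (x i) * D i a)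
    (hD : ∀ (i j : X) (a : MonoidAlgebra K G), D j (au K (x i) * a) = if i = j then a else 0)
    (hDT : ∀ (i : X) (m : ℕ) (a : MonoidAlgebra K G),
      a ∈ T (K := K) N (m + 1) → D i a ∈ T (K := K) N m)
    (hQ : ∀ a b : MonoidAlgebra K (G ⧸ N), a * b = 0 → a = 0 ∨ b = 0)
    (m : ℕ) (a b : MonoidAlgebra K G) (hb : proj K N b ≠ 0) (ha : a ∈ T (K := K) N m)
    (ha' : a ∉ T (K := K) N (m + 1)) : a * b ∉ T (K := K) N (m + 1) := by
  induction m generalizing a with
  | zero =>
    intro h
    rw [mem_T_one_iff, map_mul] at h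
    rcases hQ _ _ h with h1 | h1
    · exact ha' ((mem_T_one_iff N a).mpr h1)
    · exact hb h1
  | succ m ih =>
    intro hab
    have hpa : proj K N a = 0 := (mem_T_one_iff N a).mp (T_le_one N m a ha)
    obtain ⟨s, hs0, hsa⟩ := hexp a hpa
    have hex : ∃ i0, D i0 a ∉ T (K := K) N (m + 1) := by
      by_contra hall
      push Not at hall
      have hsum : ∑ i ∈ s, au K (x i) * D i a ∈ T (K := K) N (m + 1 + 1) := by
        refine AddSubmonoid.sum_mem _ (fun i _ => ?_)
        have h0 : au K (x i) ∈ T (K := K) N 1 := by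
          have := au_mul_mem_T_one (K := K) N (x i) (hx i) 1
          rwa [mul_one] at this
        have h3 := T_mul_T N 1 (m + 1) _ _ h0 (hall i)
        have e : 1 + (m + 1) = m + 1 + 1 := by omega
        rwa [e] at h3
      rw [← hsa] at hsum
      exact ha' hsum
    obtain ⟨i0, hi0⟩ := hex
    have h4 : D i0 (a * b) ∈ T (K := K) N (m + 1) := hDT i0 (m + 1) _ hab
    rw [D_mul x D hD a b s hs0 hsa i0] at h4
    exact ih (D i0 a) (hDT i0 m a ha) hi0 h4

/-- Right key lemma, from the left one by the antipode. -/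
theorem key_right (N : Subgroup G) [N.Normal] {X : Type*} (x : X → G) (hx : ∀ i, x i ∈ N)
    (D : X → MonoidAlgebra K G →+ MonoidAlgebra K G)
    (hexp : ∀ a : MonoidAlgebra K G, proj K N a = 0 →
      ∃ s : Finset X, (∀ i, i ∉ s → D i a = 0) ∧ a = ∑ i ∈ s, au K (x i) * D i a)
    (hD : ∀ (i j : X) (a : MonoidAlgebra K G), D j (au K (x i) * a) = if i = j then a else 0)
    (hDT : ∀ (i : X) (m : ℕ) (a : MonoidAlgebra K G),
      a ∈ T (K := K) N (m + 1) → D i a ∈ T (K := K) N m)
    (hQ : ∀ a b : MonoidAlgebra K (G ⧸ N), a * b = 0 → a = 0 ∨ b = 0)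
    (n : ℕ) (a b : MonoidAlgebra K G) (ha : proj K N a ≠ 0) (hb : b ∈ T (K := K) N n)
    (hb' : b ∉ T (K := K) N (n + 1)) : a * b ∉ T (K := K) N (n + 1) := by
  intro h
  have h1 := anti_mem_T N (n + 1) _ h
  rw [anti_mul] at h1
  exact key_left N x hx D hexp hD hDT hQ n (anti K G b) (anti K G a) (proj_anti_ne N a ha)
    (anti_mem_T N n b hb) (anti_not_mem_T N (n + 1) b hb') h1

/-- Orders add up. -/
theorem order_mul (N : Subgroup G) [N.Normal] {X : Type*} (x : X → G) (hx : ∀ i, x i ∈ N)
    (D : X → MonoidAlgebra K G →+ MonoidAlgebra K G)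
    (hexp : ∀ a : MonoidAlgebra K G, proj K N a = 0 →
      ∃ s : Finset X, (∀ i, i ∉ s → D i a = 0) ∧ a = ∑ i ∈ s, au K (x i) * D i a)
    (hD : ∀ (i j : X) (a : MonoidAlgebra K G), D j (au K (x i) * a) = if i = j then a else 0)
    (hDT : ∀ (i : X) (m : ℕ) (a : MonoidAlgebra K G),
      a ∈ T (K := K) N (m + 1) → D i a ∈ T (K := K) N m)
    (hQ : ∀ a b : MonoidAlgebra K (G ⧸ N), a * b = 0 → a = 0 ∨ b = 0)
    (m n : ℕ) (a b : MonoidAlgebra K G) (ha : a ∈ T (K := K) N m)
    (ha' : a ∉ T (K := K) N (m + 1)) (hb : b ∈ T (K := K) N n)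
    (hb' : b ∉ T (K := K) N (n + 1)) : a * b ∉ T (K := K) N (m + n + 1) := by
  induction m generalizing a with
  | zero =>
    have hpa : proj K N a ≠ 0 := fun h => ha' ((mem_T_one_iff N a).mpr h)
    rw [Nat.zero_add]
    exact key_right N x hx D hexp hD hDT hQ n a b hpa hb hb'
  | succ m ih =>
    intro hab
    have hpa : proj K N a = 0 := (mem_T_one_iff N a).mp (T_le_one N m a ha)
    obtain ⟨s, hs0, hsa⟩ := hexp a hpa
    have hex : ∃ i0, D i0 a ∉ T (K := K) N (m + 1) := by
      by_contra hall
      push Not at hall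
      have hsum : ∑ i ∈ s, au K (x i) * D i a ∈ T (K := K) N (m + 1 + 1) := by
        refine AddSubmonoid.sum_mem _ (fun i _ => ?_)
        have h0 : au K (x i) ∈ T (K := K) N 1 := by
          have := au_mul_mem_T_one (K := K) N (x i) (hx i) 1
          rwa [mul_one] at this
        have h3 := T_mul_T N 1 (m + 1) _ _ h0 (hall i)
        have e : 1 + (m + 1) = m + 1 + 1 := by omega
        rwa [e] at h3
      rw [← hsa] at hsum
      exact ha' hsum
    obtain ⟨i0, hi0⟩ := hex
    have e : m + 1 + n + 1 = (m + n + 1) + 1 := by omega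
    rw [e] at hab
    have h4 : D i0 (a * b) ∈ T (K := K) N (m + n + 1) := hDT i0 (m + n + 1) _ hab
    rw [D_mul x D hD a b s hs0 hsa i0] at h4
    exact ih (D i0 a) (hDT i0 m a ha) hi0 h4

theorem exists_order (N : Subgroup G) [N.Normal]
    (hsep : ∀ a : MonoidAlgebra K G, (∀ m : ℕ, a ∈ T (K := K) N m) → a = 0)
    (a : MonoidAlgebra K G) (ha : a ≠ 0) :
    ∃ m : ℕ, a ∈ T (K := K) N m ∧ a ∉ T (K := K) N (m + 1) := by
  by_contra hno
  push Not at hno
  apply ha
  apply hsep
  intro m
  induction m with
  | zero => exact mem_T_zero N a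
  | succ m ih => exact hno m ih

/-- **Abstract assembly.**  If the kernel of `K[G] → K[G ⧸ N]` carries a left Fox calculus
(`hexp`, `hD`, `hDT`) and its powers intersect in zero (`hsep`), then `K[G]` has no zero divisors
as soon as `K[G ⧸ N]` has none. -/
theorem noZero_of_fox (N : Subgroup G) [N.Normal] {X : Type*} (x : X → G) (hx : ∀ i, x i ∈ N)
    (D : X → MonoidAlgebra K G →+ MonoidAlgebra K G)
    (hexp : ∀ a : MonoidAlgebra K G, proj K N a = 0 →
      ∃ s : Finset X, (∀ i, i ∉ s → D i a = 0) ∧ a = ∑ i ∈ s, au K (x i) * D i a)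
    (hD : ∀ (i j : X) (a : MonoidAlgebra K G), D j (au K (x i) * a) = if i = j then a else 0)
    (hDT : ∀ (i : X) (m : ℕ) (a : MonoidAlgebra K G),
      a ∈ T (K := K) N (m + 1) → D i a ∈ T (K := K) N m)
    (hsep : ∀ a : MonoidAlgebra K G, (∀ m : ℕ, a ∈ T (K := K) N m) → a = 0)
    (hQ : ∀ a b : MonoidAlgebra K (G ⧸ N), a * b = 0 → a = 0 ∨ b = 0) :
    ∀ a b : MonoidAlgebra K G, a * b = 0 → a = 0 ∨ b = 0 := by
  intro a b hab
  by_contra hcon
  push Not at hcon
  obtain ⟨ha, hb⟩ := hcon
  obtain ⟨m, ham, ham'⟩ := exists_order N hsep a ha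
  obtain ⟨n, hbn, hbn'⟩ := exists_order N hsep b hb
  have h := order_mul N x hx D hexp hD hDT hQ m n a b ham ham' hbn hbn'
  rw [hab] at h
  exact h (AddSubmonoid.zero_mem _)

/-- Direct finiteness passes up as soon as the powers of the kernel intersect in zero. -/
theorem directlyFinite_of_sep (N : Subgroup G) [N.Normal]
    (hsep : ∀ a : MonoidAlgebra K G, (∀ m : ℕ, a ∈ T (K := K) N m) → a = 0)
    (hQ : ∀ a b : MonoidAlgebra K (G ⧸ N), a * b = 1 → b * a = 1) :
    ∀ a b : MonoidAlgebra K G, a * b = 1 → b * a = 1 := by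
  intro a b hab
  have h1 : proj K N a * proj K N b = 1 := by rw [← map_mul, hab, map_one]
  have h2 := hQ _ _ h1
  have hker : proj K N (1 - b * a) = 0 := by
    rw [map_sub, map_one, map_mul, h2, sub_self]
  have hidem : (1 - b * a) * (1 - b * a) = 1 - b * a := by
    have hb : b * a * (b * a) = b * a := by
      calc b * a * (b * a) = b * (a * b) * a := by noncomm_ring
        _ = b * a := by rw [hab, mul_one]
    calc (1 - b * a) * (1 - b * a) = 1 - b * a - b * a + b * a * (b * a) := by noncomm_ring
      _ = 1 - b * a := by rw [hb]; abel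
  have hT1 : 1 - b * a ∈ T (K := K) N 1 := (mem_T_one_iff N _).mpr hker
  have hall : ∀ m : ℕ, 1 - b * a ∈ T (K := K) N m := by
    intro m
    induction m with
    | zero => exact mem_T_zero N _
    | succ m ih =>
      have h3 := T_mul_T_one N m _ _ ih hT1
      rwa [hidem] at h3
  have h0 := hsep _ hall
  exact (sub_eq_zero.mp h0).symm

end Assembly

end Vale.Agent.Lib.P201.Free
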