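import Mathlib
import Vale.Agent.Lib.P201.helper60.FreeAssembly

/-!
# Free kernels: the derivatives `Dmap` on `K[G]` built from derivatives on `K[FreeGroup X]`

`ι : FreeGroup X →* G` injective with normal range `N`.  Every `g : G` is `ι (fpart g) * rep g`
with `rep g` the chosen representative of the coset `N g`.  Given additive maps
`d i : K[FreeGroup X] → K[FreeGroup X]`, `Dmap i` is the additive map of `K[G]` with
`Dmap i (r g) = ι_* (d i (fpart g)) * (r (rep g))`.
-/

namespace Vale.Agent.Lib.P201.Free

section Defs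

variable {K : Type*} [CommRing K] {X : Type*} {G : Type*} [Group G]

/-- The chosen representative of the coset `N g`. -/
noncomputable def rep (N : Subgroup G) (g : G) : G :=
  Quotient.out (QuotientGroup.mk g : G ⧸ N)

theorem mk_rep (N : Subgroup G) (g : G) :
    (QuotientGroup.mk (rep N g) : G ⧸ N) = QuotientGroup.mk g := Quotient.out_eq _

theorem mul_rep_inv_mem (N : Subgroup G) [N.Normal] (g : G) : g * (rep N g)⁻¹ ∈ N := by
  have hz1 : (rep N g)⁻¹ * g ∈ N := QuotientGroup.eq.mp (mk_rep N g)
  exact (Subgroup.Normal.mem_comm_iff inferInstance).mp hz1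

theorem rep_mul_left (N : Subgroup G) [N.Normal] (n g : G) (hn : n ∈ N) :
    rep N (n * g) = rep N g := by
  have h : (QuotientGroup.mk (n * g) : G ⧸ N) = QuotientGroup.mk g := by
    rw [QuotientGroup.mk_mul, (QuotientGroup.eq_one_iff n).mpr hn, one_mul]
  rw [rep, h, rep]

theorem exists_fpart (ι : FreeGroup X →* G) (N : Subgroup G) [N.Normal] (hN : N = ι.range)
    (g : G) : ∃ f : FreeGroup X, ι f = g * (rep N g)⁻¹ := by
  have h := mul_rep_inv_mem N g
  have h2 : g * (rep N g)⁻¹ ∈ ι.range := by
    rw [← hN]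
    exact h
  obtain ⟨f, hf⟩ := h2
  exact ⟨f, hf⟩

/-- The free-group part of `g`: `g = ι (fpart g) * rep g`. -/
noncomputable def fpart (ι : FreeGroup X →* G) (N : Subgroup G) [N.Normal] (hN : N = ι.range)
    (g : G) : FreeGroup X :=
  Classical.choose (exists_fpart ι N hN g)

theorem map_fpart (ι : FreeGroup X →* G) (N : Subgroup G) [N.Normal] (hN : N = ι.range)
    (g : G) : ι (fpart ι N hN g) = g * (rep N g)⁻¹ :=
  Classical.choose_spec (exists_fpart ι N hN g)

theorem map_fpart_mul_rep (ι : FreeGroup X →* G) (N : Subgroup G) [N.Normal] (hN : N = ι.range)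
    (g : G) : ι (fpart ι N hN g) * rep N g = g := by
  rw [map_fpart, inv_mul_cancel_right]

theorem fpart_mul_left (ι : FreeGroup X →* G) (hι : Function.Injective ι) (N : Subgroup G)
    [N.Normal] (hN : N = ι.range) (f : FreeGroup X) (g : G) :
    fpart ι N hN (ι f * g) = f * fpart ι N hN g := by
  apply hι
  have hmem : ι f ∈ N := by rw [hN]; exact ⟨f, rfl⟩
  rw [map_fpart, map_mul, map_fpart, rep_mul_left N (ι f) g hmem, mul_assoc]

/-- The ring homomorphism `K[FreeGroup X] → K[G]` induced by `ι`. -/
noncomputable def lift (K : Type*) [CommRing K] {X : Type*} {G : Type*} [Group G]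
    (ι : FreeGroup X →* G) : MonoidAlgebra K (FreeGroup X) →+* MonoidAlgebra K G :=
  MonoidAlgebra.mapDomainRingHom K ι

theorem lift_single (ι : FreeGroup X →* G) (f : FreeGroup X) (r : K) :
    lift K ι (MonoidAlgebra.single f r) = MonoidAlgebra.single (ι f) r := by
  change MonoidAlgebra.mapDomain (fun f : FreeGroup X => ι f) (MonoidAlgebra.single f r) = _
  rw [MonoidAlgebra.mapDomain_single]

/-- The derivative `Dmap i` on `K[G]`:
`Dmap i (single g r) = lift (d i (single (fpart g) 1)) * single (rep g) r`. -/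
noncomputable def Dmap (ι : FreeGroup X →* G) (N : Subgroup G) [N.Normal] (hN : N = ι.range)
    (d : X → MonoidAlgebra K (FreeGroup X) →+ MonoidAlgebra K (FreeGroup X)) (i : X) :
    MonoidAlgebra K G →+ MonoidAlgebra K G :=
  (Finsupp.liftAddHom (fun g : G =>
      (AddMonoidHom.mulLeft
        (lift K ι (d i (MonoidAlgebra.single (fpart ι N hN g) (1 : K))))).comp
        (MonoidAlgebra.singleAddHom (rep N g)))).comp
    (MonoidAlgebra.coeffAddEquiv (R := K) (M := G)).toAddMonoidHom

theorem Dmap_single (ι : FreeGroup X →* G) (N : Subgroup G) [N.Normal] (hN : N = ι.range)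
    (d : X → MonoidAlgebra K (FreeGroup X) →+ MonoidAlgebra K (FreeGroup X)) (i : X)
    (g : G) (r : K) :
    Dmap ι N hN d i (MonoidAlgebra.single g r)
      = lift K ι (d i (MonoidAlgebra.single (fpart ι N hN g) (1 : K)))
        * MonoidAlgebra.single (rep N g) r := by
  simp [Dmap]

/-- The augmentation `K[FreeGroup X] → K` (sum of the coefficients). -/
noncomputable def eps (K : Type*) [CommRing K] (X : Type*) :
    MonoidAlgebra K (FreeGroup X) →+ K :=
  (Finsupp.liftAddHom (fun _ : FreeGroup X => AddMonoidHom.id K)).comp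
    (MonoidAlgebra.coeffAddEquiv (R := K) (M := FreeGroup X)).toAddMonoidHom

theorem eps_single (f : FreeGroup X) (r : K) : eps K X (MonoidAlgebra.single f r) = r := by
  simp [eps]

end Defs

end Vale.Agent.Lib.P201.Free
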