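import Mathlib
import Vale.Agent.Lib.P201.helper60.FreeDefs

/-!
# Free kernels: the A-level construction

From a family `d i` of additive maps of `K[FreeGroup X]` satisfying the rules of the Fox calculus
(`h1`-`h5`), the maps `Dmap i` of `K[G]` satisfy the hypotheses of `noZero_of_fox`.
-/

namespace Vale.Agent.Lib.P201.Free

open Classical

section Constr

variable {K : Type*} [CommRing K] {X : Type*} {G : Type*} [Group G]

theorem d_one (d : X → MonoidAlgebra K (FreeGroup X) →+ MonoidAlgebra K (FreeGroup X))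
    (h1 : ∀ (i : X) (f : FreeGroup X) (u : MonoidAlgebra K (FreeGroup X)),
      d i (MonoidAlgebra.single f 1 * u) = d i (MonoidAlgebra.single f 1) * u + d i u)
    (i : X) : d i (MonoidAlgebra.single (1 : FreeGroup X) (1 : K)) = 0 := by
  have h := h1 i 1 (MonoidAlgebra.single (1 : FreeGroup X) (1 : K))
  rw [MonoidAlgebra.single_mul_single, mul_one, mul_one] at h
  have h' : d i (MonoidAlgebra.single (1 : FreeGroup X) (1 : K))
      * MonoidAlgebra.single (1 : FreeGroup X) (1 : K)
      = d i (MonoidAlgebra.single (1 : FreeGroup X) (1 : K)) := by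
    rw [← MonoidAlgebra.one_def, mul_one]
  rw [h'] at h
  exact left_eq_add.mp h

/-- Product rule for `Dmap` against an element of `N` on the left. -/
theorem Dmap_single_mul (ι : FreeGroup X →* G) (hι : Function.Injective ι) (N : Subgroup G)
    [N.Normal] (hN : N = ι.range)
    (d : X → MonoidAlgebra K (FreeGroup X) →+ MonoidAlgebra K (FreeGroup X))
    (h1 : ∀ (i : X) (f : FreeGroup X) (u : MonoidAlgebra K (FreeGroup X)),
      d i (MonoidAlgebra.single f 1 * u) = d i (MonoidAlgebra.single f 1) * u + d i u)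
    (i : X) (f : FreeGroup X) (y : MonoidAlgebra K G) :
    Dmap ι N hN d i (MonoidAlgebra.single (ι f) (1 : K) * y)
      = lift K ι (d i (MonoidAlgebra.single f (1 : K))) * y + Dmap ι N hN d i y := by
  induction y using MonoidAlgebra.induction_linear with
  | zero => rw [mul_zero, map_zero, mul_zero, add_zero]
  | add y₁ y₂ h₁ h₂ =>
    rw [mul_add, map_add, map_add, h₁, h₂, mul_add]
    abel
  | single g r =>
    have hmem : ι f ∈ N := by rw [hN]; exact ⟨f, rfl⟩
    rw [MonoidAlgebra.single_mul_single, one_mul, Dmap_single, Dmap_single,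
      fpart_mul_left ι hι N hN f g, rep_mul_left N (ι f) g hmem]
    have e1 : MonoidAlgebra.single (f * fpart ι N hN g) (1 : K)
        = MonoidAlgebra.single f (1 : K) * MonoidAlgebra.single (fpart ι N hN g) (1 : K) := by
      rw [MonoidAlgebra.single_mul_single, mul_one]
    rw [e1, h1, map_add, map_mul, lift_single, add_mul, mul_assoc,
      MonoidAlgebra.single_mul_single, one_mul, map_fpart_mul_rep]

theorem Dmap_au_mul (ι : FreeGroup X →* G) (hι : Function.Injective ι) (N : Subgroup G)
    [N.Normal] (hN : N = ι.range)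
    (d : X → MonoidAlgebra K (FreeGroup X) →+ MonoidAlgebra K (FreeGroup X))
    (h1 : ∀ (i : X) (f : FreeGroup X) (u : MonoidAlgebra K (FreeGroup X)),
      d i (MonoidAlgebra.single f 1 * u) = d i (MonoidAlgebra.single f 1) * u + d i u)
    (i : X) (f : FreeGroup X) (y : MonoidAlgebra K G) :
    Dmap ι N hN d i (au K (ι f) * y) = lift K ι (d i (MonoidAlgebra.single f (1 : K))) * y := by
  rw [au, sub_mul, one_mul, map_sub, Dmap_single_mul ι hι N hN d h1]
  abel

/-- `hD` of the assembly. -/
theorem Dmap_gen_mul (ι : FreeGroup X →* G) (hι : Function.Injective ι) (N : Subgroup G)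
    [N.Normal] (hN : N = ι.range)
    (d : X → MonoidAlgebra K (FreeGroup X) →+ MonoidAlgebra K (FreeGroup X))
    (h1 : ∀ (i : X) (f : FreeGroup X) (u : MonoidAlgebra K (FreeGroup X)),
      d i (MonoidAlgebra.single f 1 * u) = d i (MonoidAlgebra.single f 1) * u + d i u)
    (h2 : ∀ i : X, d i (MonoidAlgebra.single (FreeGroup.of i) (1 : K)) = 1)
    (h2' : ∀ i j : X, i ≠ j → d j (MonoidAlgebra.single (FreeGroup.of i) (1 : K)) = 0)
    (i j : X) (a : MonoidAlgebra K G) :
    Dmap ι N hN d j (au K (ι (FreeGroup.of i)) * a) = if i = j then a else 0 := by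
  rw [Dmap_au_mul ι hι N hN d h1]
  split_ifs with hij
  · subst hij
    rw [h2, map_one, one_mul]
  · rw [h2' i j hij, map_zero, zero_mul]

/-- `hDT` of the assembly. -/
theorem Dmap_mem_T (ι : FreeGroup X →* G) (hι : Function.Injective ι) (N : Subgroup G)
    [N.Normal] (hN : N = ι.range)
    (d : X → MonoidAlgebra K (FreeGroup X) →+ MonoidAlgebra K (FreeGroup X))
    (h1 : ∀ (i : X) (f : FreeGroup X) (u : MonoidAlgebra K (FreeGroup X)),
      d i (MonoidAlgebra.single f 1 * u) = d i (MonoidAlgebra.single f 1) * u + d i u)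
    (i : X) (m : ℕ) (a : MonoidAlgebra K G) (ha : a ∈ T (K := K) N (m + 1)) :
    Dmap ι N hN d i a ∈ T (K := K) N m := by
  refine AddSubmonoid.closure_induction
    (motive := fun a _ => Dmap ι N hN d i a ∈ T (K := K) N m) ?_ ?_ ?_ ha
  · rintro y ⟨l, hl, c, rfl⟩
    cases l with
    | nil => simp at hl
    | cons n l =>
      simp only [List.length_cons, Nat.add_right_cancel_iff] at hl
      simp only [List.map_cons, List.prod_cons]
      have hn : (n : G) ∈ ι.range := by
        rw [← hN]
        exact n.2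
      obtain ⟨f, hf⟩ := hn
      rw [mul_assoc, ← hf, Dmap_au_mul ι hι N hN d h1]
      exact mul_mem_T N m _ _ (AddSubmonoid.subset_closure ⟨l, hl, c, rfl⟩)
  · rw [map_zero]; exact AddSubmonoid.zero_mem _
  · intro a b _ _ ha hb
    rw [map_add]; exact AddSubmonoid.add_mem _ ha hb

/-- The expansion `a - E a = ∑ (x_i - 1) * Dmap i a`. -/
theorem exists_expansion (ι : FreeGroup X →* G) (N : Subgroup G)
    [N.Normal] (hN : N = ι.range)
    (d : X → MonoidAlgebra K (FreeGroup X) →+ MonoidAlgebra K (FreeGroup X))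
    (h3 : ∀ f : FreeGroup X, ∃ s : Finset X,
      (∀ i, i ∉ s → d i (MonoidAlgebra.single f (1 : K)) = 0) ∧
      MonoidAlgebra.single f (1 : K) - 1
        = ∑ i ∈ s, (MonoidAlgebra.single (FreeGroup.of i) (1 : K) - 1)
            * d i (MonoidAlgebra.single f 1))
    (a : MonoidAlgebra K G) :
    ∃ s : Finset X, (∀ i, i ∉ s → Dmap ι N hN d i a = 0) ∧
      a - MonoidAlgebra.mapDomain (fun g : G => Quotient.out (QuotientGroup.mk g : G ⧸ N)) a
        = ∑ i ∈ s, au K (ι (FreeGroup.of i)) * Dmap ι N hN d i a := by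
  induction a using MonoidAlgebra.induction_linear with
  | zero =>
    refine ⟨∅, fun i _ => map_zero _, ?_⟩
    rw [MonoidAlgebra.mapDomain_zero, sub_zero, Finset.sum_empty]
  | add a₁ a₂ h₁ h₂ =>
    obtain ⟨s₁, hs₁, e₁⟩ := h₁
    obtain ⟨s₂, hs₂, e₂⟩ := h₂
    refine ⟨s₁ ∪ s₂, ?_, ?_⟩
    · intro i hi
      rw [Finset.mem_union, not_or] at hi
      rw [map_add, hs₁ i hi.1, hs₂ i hi.2, add_zero]
    · have e₁' : ∑ i ∈ s₁ ∪ s₂, au K (ι (FreeGroup.of i)) * Dmap ι N hN d i a₁
          = ∑ i ∈ s₁, au K (ι (FreeGroup.of i)) * Dmap ι N hN d i a₁ := by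
        symm
        apply Finset.sum_subset Finset.subset_union_left
        intro i _ hi
        rw [hs₁ i hi, mul_zero]
      have e₂' : ∑ i ∈ s₁ ∪ s₂, au K (ι (FreeGroup.of i)) * Dmap ι N hN d i a₂
          = ∑ i ∈ s₂, au K (ι (FreeGroup.of i)) * Dmap ι N hN d i a₂ := by
        symm
        apply Finset.sum_subset Finset.subset_union_right
        intro i _ hi
        rw [hs₂ i hi, mul_zero]
      simp only [map_add, mul_add, Finset.sum_add_distrib]
      rw [e₁', e₂', ← e₁, ← e₂, MonoidAlgebra.mapDomain_add]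
      abel
  | single g r =>
    obtain ⟨s, hs0, hs⟩ := h3 (fpart ι N hN g)
    refine ⟨s, ?_, ?_⟩
    · intro i hi
      rw [Dmap_single, hs0 i hi, map_zero, zero_mul]
    · rw [MonoidAlgebra.mapDomain_single]
      have e1 : MonoidAlgebra.single g r
            - MonoidAlgebra.single (Quotient.out (QuotientGroup.mk g : G ⧸ N)) r
          = lift K ι (MonoidAlgebra.single (fpart ι N hN g) (1 : K) - 1)
            * MonoidAlgebra.single (rep N g) r := by
        rw [map_sub, map_one, lift_single, sub_mul, one_mul, MonoidAlgebra.single_mul_single,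
          one_mul, map_fpart_mul_rep]
        rfl
      rw [e1, hs, map_sum, Finset.sum_mul]
      refine Finset.sum_congr rfl (fun i _ => ?_)
      rw [map_mul, map_sub, map_one, lift_single, Dmap_single, mul_assoc]
      rfl

/-- `hexp` of the assembly. -/
theorem exists_expansion_of_proj (ι : FreeGroup X →* G) (N : Subgroup G)
    [N.Normal] (hN : N = ι.range)
    (d : X → MonoidAlgebra K (FreeGroup X) →+ MonoidAlgebra K (FreeGroup X))
    (h3 : ∀ f : FreeGroup X, ∃ s : Finset X,
      (∀ i, i ∉ s → d i (MonoidAlgebra.single f (1 : K)) = 0) ∧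
      MonoidAlgebra.single f (1 : K) - 1
        = ∑ i ∈ s, (MonoidAlgebra.single (FreeGroup.of i) (1 : K) - 1)
            * d i (MonoidAlgebra.single f 1))
    (a : MonoidAlgebra K G) (ha : proj K N a = 0) :
    ∃ s : Finset X, (∀ i, i ∉ s → Dmap ι N hN d i a = 0) ∧
      a = ∑ i ∈ s, au K (ι (FreeGroup.of i)) * Dmap ι N hN d i a := by
  obtain ⟨s, hs0, hs⟩ := exists_expansion ι N hN d h3 a
  refine ⟨s, hs0, ?_⟩
  have hE : MonoidAlgebra.mapDomain
      (fun g : G => Quotient.out (QuotientGroup.mk g : G ⧸ N)) a = 0 :=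
    mapDomain_out_eq_zero N a ha
  rw [hE, sub_zero] at hs
  exact hs

end Constr

end Vale.Agent.Lib.P201.Free
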