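import Mathlib
import Vale.Agent.Lib.P201.helper60.FreeConstr

/-!
# Free kernels: separation and the main reduction

`Rmap t a` is the `K[FreeGroup X]`-coefficient of `a` at the coset representative `t`.  It
intertwines `Dmap i` with `d i`, so the separation property `h5` of the free group algebra gives
the separation property `hsep` of `K[G]`, and `noZero_of_fox` applies.
-/

namespace Vale.Agent.Lib.P201.Free

open Classical

section Sep

variable {K : Type*} [CommRing K] {X : Type*} {G : Type*} [Group G]

/-- The coefficient of `a` at the coset representative `t`, an element of `K[FreeGroup X]`. -/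
noncomputable def Rmap (ι : FreeGroup X →* G) (N : Subgroup G) [N.Normal] (hN : N = ι.range)
    (t : G) : MonoidAlgebra K G →+ MonoidAlgebra K (FreeGroup X) :=
  (Finsupp.liftAddHom (fun g : G =>
      if rep N g = t then MonoidAlgebra.singleAddHom (fpart ι N hN g)
      else (0 : K →+ MonoidAlgebra K (FreeGroup X)))).comp
    (MonoidAlgebra.coeffAddEquiv (R := K) (M := G)).toAddMonoidHom

theorem Rmap_single_eq (ι : FreeGroup X →* G) (N : Subgroup G) [N.Normal] (hN : N = ι.range)
    (t g : G) (r : K) (h : rep N g = t) :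
    Rmap ι N hN t (MonoidAlgebra.single g r) = MonoidAlgebra.single (fpart ι N hN g) r := by
  simp [Rmap, h]

theorem Rmap_single_ne (ι : FreeGroup X →* G) (N : Subgroup G) [N.Normal] (hN : N = ι.range)
    (t g : G) (r : K) (h : rep N g ≠ t) :
    Rmap ι N hN t (MonoidAlgebra.single g r) = 0 := by
  simp [Rmap, h]

theorem rep_rep (N : Subgroup G) (g : G) : rep N (rep N g) = rep N g := by
  rw [rep, mk_rep, rep]

theorem fpart_rep (ι : FreeGroup X →* G) (hι : Function.Injective ι) (N : Subgroup G)
    [N.Normal] (hN : N = ι.range) (g : G) : fpart ι N hN (rep N g) = 1 := by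
  apply hι
  rw [map_fpart, rep_rep, mul_inv_cancel, map_one]

/-- `Rmap t (lift u * single (rep g) r)`. -/
theorem Rmap_lift_mul (ι : FreeGroup X →* G) (hι : Function.Injective ι) (N : Subgroup G)
    [N.Normal] (hN : N = ι.range) (t g : G) (r : K) (u : MonoidAlgebra K (FreeGroup X)) :
    Rmap ι N hN t (lift K ι u * MonoidAlgebra.single (rep N g) r)
      = if rep N g = t then u * MonoidAlgebra.single (1 : FreeGroup X) r else 0 := by
  induction u using MonoidAlgebra.induction_linear with
  | zero =>
    rw [map_zero, zero_mul, map_zero]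
    split_ifs <;> simp
  | add u₁ u₂ h₁ h₂ =>
    rw [map_add, add_mul, map_add, h₁, h₂]
    split_ifs
    · rw [add_mul]
    · rw [add_zero]
  | single f c =>
    have hmem : ι f ∈ N := by rw [hN]; exact ⟨f, rfl⟩
    rw [lift_single, MonoidAlgebra.single_mul_single]
    have hrep : rep N (ι f * rep N g) = rep N g := by
      rw [rep_mul_left N (ι f) (rep N g) hmem, rep_rep]
    have hfp : fpart ι N hN (ι f * rep N g) = f := by
      rw [fpart_mul_left ι hι N hN f (rep N g), fpart_rep ι hι N hN g, mul_one]
    split_ifs with h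
    · rw [Rmap_single_eq ι N hN t _ _ (hrep.trans h), hfp, MonoidAlgebra.single_mul_single,
        mul_one]
    · rw [Rmap_single_ne ι N hN t _ _ (fun h' => h (hrep.symm.trans h'))]

/-- `Rmap t` intertwines `Dmap i` and `d i`. -/
theorem Rmap_Dmap (ι : FreeGroup X →* G) (hι : Function.Injective ι) (N : Subgroup G)
    [N.Normal] (hN : N = ι.range)
    (d : X → MonoidAlgebra K (FreeGroup X) →+ MonoidAlgebra K (FreeGroup X))
    (h4 : ∀ (i : X) (c : K) (u : MonoidAlgebra K (FreeGroup X)),
      d i (MonoidAlgebra.single 1 c * u) = MonoidAlgebra.single 1 c * d i u)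
    (t : G) (i : X) (a : MonoidAlgebra K G) :
    Rmap ι N hN t (Dmap ι N hN d i a) = d i (Rmap ι N hN t a) := by
  induction a using MonoidAlgebra.induction_linear with
  | zero => simp only [map_zero]
  | add a₁ a₂ h₁ h₂ => simp only [map_add, h₁, h₂]
  | single g r =>
    rw [Dmap_single, Rmap_lift_mul ι hι N hN t g r]
    split_ifs with h
    · rw [Rmap_single_eq ι N hN t g r h]
      have e : MonoidAlgebra.single (fpart ι N hN g) r
          = MonoidAlgebra.single (1 : FreeGroup X) r
            * MonoidAlgebra.single (fpart ι N hN g) (1 : K) := by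
        rw [MonoidAlgebra.single_mul_single, one_mul, mul_one]
      rw [e, h4]
      exact (MonoidAlgebra.single_one_comm r _).symm
    · rw [Rmap_single_ne ι N hN t g r h, map_zero]

theorem Rmap_foldl (ι : FreeGroup X →* G) (hι : Function.Injective ι) (N : Subgroup G)
    [N.Normal] (hN : N = ι.range)
    (d : X → MonoidAlgebra K (FreeGroup X) →+ MonoidAlgebra K (FreeGroup X))
    (h4 : ∀ (i : X) (c : K) (u : MonoidAlgebra K (FreeGroup X)),
      d i (MonoidAlgebra.single 1 c * u) = MonoidAlgebra.single 1 c * d i u)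
    (t : G) (l : List X) (a : MonoidAlgebra K G) :
    Rmap ι N hN t (l.foldl (fun acc i => Dmap ι N hN d i acc) a)
      = l.foldl (fun acc i => d i acc) (Rmap ι N hN t a) := by
  induction l generalizing a with
  | nil => rfl
  | cons i l ih =>
    rw [List.foldl_cons, List.foldl_cons, ih, Rmap_Dmap ι hι N hN d h4]

/-- The augmentation of `Rmap (rep t) a` is the coefficient of `proj a` at the coset of `t`. -/
theorem eps_Rmap (ι : FreeGroup X →* G) (N : Subgroup G) [N.Normal] (hN : N = ι.range)
    (t : G) (a : MonoidAlgebra K G) :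
    eps K X (Rmap ι N hN (rep N t) a) = (proj K N a).coeff (QuotientGroup.mk t : G ⧸ N) := by
  induction a using MonoidAlgebra.induction_linear with
  | zero => simp only [map_zero, MonoidAlgebra.coeff_zero, Finsupp.coe_zero, Pi.zero_apply]
  | add a₁ a₂ h₁ h₂ =>
    simp only [map_add, h₁, h₂, MonoidAlgebra.coeff_add, Finsupp.coe_add, Pi.add_apply]
  | single g r =>
    rw [proj_single, MonoidAlgebra.coeff_single]
    by_cases h : rep N g = rep N t
    · have hmk : (QuotientGroup.mk g : G ⧸ N) = QuotientGroup.mk t := by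
        rw [← mk_rep N g, h, mk_rep]
      rw [Rmap_single_eq ι N hN _ g r h, eps_single, hmk, Finsupp.single_eq_same]
    · have hmk : (QuotientGroup.mk g : G ⧸ N) ≠ QuotientGroup.mk t := by
        intro h'
        apply h
        rw [rep, h', rep]
      rw [Rmap_single_ne ι N hN _ g r h, map_zero, Finsupp.single_apply, if_neg hmk]

/-- The coefficients of `a` are those of its coset components. -/
theorem coeff_Rmap (ι : FreeGroup X →* G) (N : Subgroup G) [N.Normal] (hN : N = ι.range)
    (g₀ : G) (a : MonoidAlgebra K G) :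
    (Rmap ι N hN (rep N g₀) a).coeff (fpart ι N hN g₀) = a.coeff g₀ := by
  induction a using MonoidAlgebra.induction_linear with
  | zero => simp only [map_zero, MonoidAlgebra.coeff_zero, Finsupp.coe_zero, Pi.zero_apply]
  | add a₁ a₂ h₁ h₂ =>
    simp only [map_add, h₁, h₂, MonoidAlgebra.coeff_add, Finsupp.coe_add, Pi.add_apply]
  | single g r =>
    rw [MonoidAlgebra.coeff_single]
    by_cases h : rep N g = rep N g₀
    · rw [Rmap_single_eq ι N hN _ g r h, MonoidAlgebra.coeff_single]
      by_cases hf : fpart ι N hN g = fpart ι N hN g₀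
      · have hg : g = g₀ := by
          rw [← map_fpart_mul_rep ι N hN g, ← map_fpart_mul_rep ι N hN g₀, hf, h]
        rw [hf, hg, Finsupp.single_eq_same, Finsupp.single_eq_same]
      · have hg : g ≠ g₀ := fun hg => hf (by rw [hg])
        rw [Finsupp.single_apply, Finsupp.single_apply, if_neg hf, if_neg hg]
    · have hg : g ≠ g₀ := fun hg => h (by rw [hg])
      rw [Rmap_single_ne ι N hN _ g r h, Finsupp.single_apply, if_neg hg]
      simp

/-- `hsep` of the assembly. -/
theorem sep_of_free (ι : FreeGroup X →* G) (hι : Function.Injective ι) (N : Subgroup G)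
    [N.Normal] (hN : N = ι.range)
    (d : X → MonoidAlgebra K (FreeGroup X) →+ MonoidAlgebra K (FreeGroup X))
    (h1 : ∀ (i : X) (f : FreeGroup X) (u : MonoidAlgebra K (FreeGroup X)),
      d i (MonoidAlgebra.single f 1 * u) = d i (MonoidAlgebra.single f 1) * u + d i u)
    (h4 : ∀ (i : X) (c : K) (u : MonoidAlgebra K (FreeGroup X)),
      d i (MonoidAlgebra.single 1 c * u) = MonoidAlgebra.single 1 c * d i u)
    (h5 : ∀ r : MonoidAlgebra K (FreeGroup X),
      (∀ l : List X, eps K X (l.foldl (fun acc i => d i acc) r) = 0) → r = 0)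
    (a : MonoidAlgebra K G) (ha : ∀ m : ℕ, a ∈ T (K := K) N m) : a = 0 := by
  have hall : ∀ (l : List X) (a : MonoidAlgebra K G), (∀ m : ℕ, a ∈ T (K := K) N m) →
      ∀ m : ℕ, l.foldl (fun acc i => Dmap ι N hN d i acc) a ∈ T (K := K) N m := by
    intro l
    induction l with
    | nil => intro a ha m; exact ha m
    | cons i l ih =>
      intro a ha m
      rw [List.foldl_cons]
      exact ih _ (fun m => Dmap_mem_T ι hι N hN d h1 i m a (ha (m + 1))) m
  have hR : ∀ t : G, Rmap ι N hN (rep N t) a = 0 := by
    intro t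
    apply h5
    intro l
    rw [← Rmap_foldl ι hι N hN d h4, eps_Rmap]
    have h0 : proj K N (l.foldl (fun acc i => Dmap ι N hN d i acc) a) = 0 :=
      (mem_T_one_iff N _).mp (hall l a ha 1)
    rw [h0]
    simp
  apply MonoidAlgebra.coeff_injective
  ext g
  rw [← coeff_Rmap ι N hN g a, hR g]
  simp

end Sep

section Main

variable {K : Type*} [CommRing K] {X : Type*} {G : Type*} [Group G]

/-- **Free kernels, reduced to the Fox calculus of the free group algebra.** -/
theorem noZero_of_free (ι : FreeGroup X →* G) (hι : Function.Injective ι) (N : Subgroup G)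
    [N.Normal] (hN : N = ι.range)
    (d : X → MonoidAlgebra K (FreeGroup X) →+ MonoidAlgebra K (FreeGroup X))
    (h1 : ∀ (i : X) (f : FreeGroup X) (u : MonoidAlgebra K (FreeGroup X)),
      d i (MonoidAlgebra.single f 1 * u) = d i (MonoidAlgebra.single f 1) * u + d i u)
    (h2 : ∀ i : X, d i (MonoidAlgebra.single (FreeGroup.of i) (1 : K)) = 1)
    (h2' : ∀ i j : X, i ≠ j → d j (MonoidAlgebra.single (FreeGroup.of i) (1 : K)) = 0)
    (h3 : ∀ f : FreeGroup X, ∃ s : Finset X,
      (∀ i, i ∉ s → d i (MonoidAlgebra.single f (1 : K)) = 0) ∧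
      MonoidAlgebra.single f (1 : K) - 1
        = ∑ i ∈ s, (MonoidAlgebra.single (FreeGroup.of i) (1 : K) - 1)
            * d i (MonoidAlgebra.single f 1))
    (h4 : ∀ (i : X) (c : K) (u : MonoidAlgebra K (FreeGroup X)),
      d i (MonoidAlgebra.single 1 c * u) = MonoidAlgebra.single 1 c * d i u)
    (h5 : ∀ r : MonoidAlgebra K (FreeGroup X),
      (∀ l : List X, eps K X (l.foldl (fun acc i => d i acc) r) = 0) → r = 0)
    (hQ : ∀ a b : MonoidAlgebra K (G ⧸ N), a * b = 0 → a = 0 ∨ b = 0) :
    ∀ a b : MonoidAlgebra K G, a * b = 0 → a = 0 ∨ b = 0 := by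
  have hx : ∀ i : X, ι (FreeGroup.of i) ∈ N := by
    intro i
    rw [hN]
    exact ⟨_, rfl⟩
  exact noZero_of_fox N (fun i : X => ι (FreeGroup.of i)) hx (Dmap ι N hN d)
    (fun a ha => exists_expansion_of_proj ι N hN d h3 a ha)
    (fun i j a => Dmap_gen_mul ι hι N hN d h1 h2 h2' i j a)
    (fun i m a ha => Dmap_mem_T ι hι N hN d h1 i m a ha)
    (fun a ha => sep_of_free ι hι N hN d h1 h4 h5 a ha)
    hQ

/-- Direct finiteness version (for P194): only `h1`, `h4`, `h5` are needed. -/
theorem directlyFinite_of_free (ι : FreeGroup X →* G) (hι : Function.Injective ι)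
    (N : Subgroup G) [N.Normal] (hN : N = ι.range)
    (d : X → MonoidAlgebra K (FreeGroup X) →+ MonoidAlgebra K (FreeGroup X))
    (h1 : ∀ (i : X) (f : FreeGroup X) (u : MonoidAlgebra K (FreeGroup X)),
      d i (MonoidAlgebra.single f 1 * u) = d i (MonoidAlgebra.single f 1) * u + d i u)
    (h4 : ∀ (i : X) (c : K) (u : MonoidAlgebra K (FreeGroup X)),
      d i (MonoidAlgebra.single 1 c * u) = MonoidAlgebra.single 1 c * d i u)
    (h5 : ∀ r : MonoidAlgebra K (FreeGroup X),
      (∀ l : List X, eps K X (l.foldl (fun acc i => d i acc) r) = 0) → r = 0)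
    (hQ : ∀ a b : MonoidAlgebra K (G ⧸ N), a * b = 1 → b * a = 1) :
    ∀ a b : MonoidAlgebra K G, a * b = 1 → b * a = 1 :=
  directlyFinite_of_sep N (fun a ha => sep_of_free ι hι N hN d h1 h4 h5 a ha) hQ

end Main

end Vale.Agent.Lib.P201.Free
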