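import Mathlib
import Vale.Agent.Lib.P201.helper40.Fox
import Vale.Agent.Lib.P201.helper60.FreeMain

/-!
# Free kernels: glue between the Fox calculus of `helper40/Fox.lean` and `noZero_of_free`

`free_kernel_of_lemmaC`: the free-kernel theorem, with the separation property of the free group
algebra (Lemma C, in the form of `helper40/LemmaC.lean`) as its only hypothesis.
-/

namespace Vale.Agent.Lib.P201.Free

open Vale.Agent.Lib.P201

section Glue

variable {K : Type*} [CommRing K] {X : Type*} {G : Type*} [Group G]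

/-- The Fox derivatives of `helper40/Fox.lean` as additive maps. -/
noncomputable def dfox (K : Type*) [CommRing K] (X : Type*) (i : X) :
    MonoidAlgebra K (FreeGroup X) →+ MonoidAlgebra K (FreeGroup X) :=
  (H40.D K i).toAddMonoidHom

theorem dfox_apply (i : X) (u : MonoidAlgebra K (FreeGroup X)) : dfox K X i u = H40.D K i u :=
  rfl

theorem single_one_mul_eq_smul (c : K) (v : MonoidAlgebra K (FreeGroup X)) :
    MonoidAlgebra.single (1 : FreeGroup X) c * v = c • v := by
  induction v using MonoidAlgebra.induction_linear with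
  | zero => rw [mul_zero, smul_zero]
  | add v₁ v₂ h₁ h₂ => rw [mul_add, smul_add, h₁, h₂]
  | single g r => rw [MonoidAlgebra.single_mul_single, one_mul, MonoidAlgebra.smul_single']

theorem dfox_h1 (i : X) (f : FreeGroup X) (u : MonoidAlgebra K (FreeGroup X)) :
    dfox K X i (MonoidAlgebra.single f 1 * u)
      = dfox K X i (MonoidAlgebra.single f 1) * u + dfox K X i u := by
  rw [dfox_apply, dfox_apply, dfox_apply, H40.D_mul, H40.aug_single, one_smul]

theorem dfox_h2 (i : X) : dfox K X i (MonoidAlgebra.single (FreeGroup.of i) (1 : K)) = 1 := by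
  rw [dfox_apply, H40.D_single, one_smul, H40.fd_of_self]

theorem dfox_h2' (i j : X) (h : i ≠ j) :
    dfox K X j (MonoidAlgebra.single (FreeGroup.of i) (1 : K)) = 0 := by
  rw [dfox_apply, H40.D_single, one_smul, H40.fd_of_ne K j i h]

theorem dfox_h3 (f : FreeGroup X) : ∃ s : Finset X,
    (∀ i, i ∉ s → dfox K X i (MonoidAlgebra.single f (1 : K)) = 0) ∧
    MonoidAlgebra.single f (1 : K) - 1
      = ∑ i ∈ s, (MonoidAlgebra.single (FreeGroup.of i) (1 : K) - 1)
          * dfox K X i (MonoidAlgebra.single f 1) := by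
  classical
  refine ⟨(H40.fd_finite K f).toFinset, ?_, ?_⟩
  · intro i hi
    rw [dfox_apply, H40.D_single, one_smul]
    by_contra h
    exact hi ((Set.Finite.mem_toFinset _).mpr h)
  · have h := H40.fox_formula K f (H40.fd_finite K f).toFinset
      (fun x hx => (Set.Finite.mem_toFinset _).mpr hx)
    have hsum : ∑ i ∈ (H40.fd_finite K f).toFinset,
          (MonoidAlgebra.single (FreeGroup.of i) (1 : K) - 1)
            * dfox K X i (MonoidAlgebra.single f 1)
        = ∑ i ∈ (H40.fd_finite K f).toFinset,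
          (MonoidAlgebra.single (FreeGroup.of i) (1 : K) - 1) * H40.fd K i f :=
      Finset.sum_congr rfl (fun i _ => by rw [dfox_apply, H40.D_single, one_smul])
    rw [hsum]
    exact sub_eq_of_eq_add' h

theorem dfox_h4 (i : X) (c : K) (u : MonoidAlgebra K (FreeGroup X)) :
    dfox K X i (MonoidAlgebra.single 1 c * u) = MonoidAlgebra.single 1 c * dfox K X i u := by
  rw [single_one_mul_eq_smul, single_one_mul_eq_smul, dfox_apply, dfox_apply, map_smul]

theorem eps_eq_aug (r : MonoidAlgebra K (FreeGroup X)) :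
    eps K X r = H40.aug K (FreeGroup X) r := by
  induction r using MonoidAlgebra.induction_linear with
  | zero => rw [map_zero, map_zero]
  | add r₁ r₂ h₁ h₂ => rw [map_add, map_add, h₁, h₂]
  | single g c => rw [eps_single, H40.aug_single]

/-- `h5` from Lemma C in the form of `helper40/LemmaC.lean`. -/
theorem dfox_h5
    (hC : ∀ P : MonoidAlgebra K (FreeGroup X) → Prop,
      (∀ r, P r → H40.aug K (FreeGroup X) r = 0) → (∀ r x, P r → P (H40.D K x r)) →
      ∀ r, P r → r = 0)
    (r : MonoidAlgebra K (FreeGroup X))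
    (hr : ∀ l : List X, eps K X (l.foldl (fun acc i => dfox K X i acc) r) = 0) : r = 0 := by
  refine hC (fun r => ∀ l : List X, eps K X (l.foldl (fun acc i => dfox K X i acc) r) = 0)
    ?_ ?_ r hr
  · intro r hP
    have h := hP []
    rw [List.foldl_nil, eps_eq_aug] at h
    exact h
  · intro r x hP l
    have h := hP (x :: l)
    rw [List.foldl_cons] at h
    exact h

/-- **Free kernels**, with Lemma C as a hypothesis. -/
theorem free_kernel_of_lemmaC
    (hC : ∀ P : MonoidAlgebra K (FreeGroup X) → Prop,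
      (∀ r, P r → H40.aug K (FreeGroup X) r = 0) → (∀ r x, P r → P (H40.D K x r)) →
      ∀ r, P r → r = 0)
    (ι : FreeGroup X →* G) (hι : Function.Injective ι) (N : Subgroup G) [N.Normal]
    (hN : N = ι.range)
    (hQ : ∀ a b : MonoidAlgebra K (G ⧸ N), a * b = 0 → a = 0 ∨ b = 0) :
    ∀ a b : MonoidAlgebra K G, a * b = 0 → a = 0 ∨ b = 0 :=
  noZero_of_free ι hι N hN (dfox K X) dfox_h1 dfox_h2 dfox_h2' dfox_h3 dfox_h4
    (dfox_h5 hC) hQ

/-- Direct finiteness, free kernels, with Lemma C as a hypothesis. -/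
theorem free_kernel_df_of_lemmaC
    (hC : ∀ P : MonoidAlgebra K (FreeGroup X) → Prop,
      (∀ r, P r → H40.aug K (FreeGroup X) r = 0) → (∀ r x, P r → P (H40.D K x r)) →
      ∀ r, P r → r = 0)
    (ι : FreeGroup X →* G) (hι : Function.Injective ι) (N : Subgroup G) [N.Normal]
    (hN : N = ι.range)
    (hQ : ∀ a b : MonoidAlgebra K (G ⧸ N), a * b = 1 → b * a = 1) :
    ∀ a b : MonoidAlgebra K G, a * b = 1 → b * a = 1 :=
  directlyFinite_of_free ι hι N hN (dfox K X) dfox_h1 dfox_h4 (dfox_h5 hC) hQ

end Glue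

end Vale.Agent.Lib.P201.Free
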