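import Mathlib
import Vale.Agent.Lib.P201.helper40.LemmaC
import Vale.Agent.Lib.P201.helper60.FreeGlue

/-!
# Free kernels: the zero-divisor property passes up extensions with free kernel

`free_kernel`: `K` a commutative ring, `N` a normal subgroup of `G` which is the range of an
injective homomorphism from a free group (of any rank). If `K[G ⧸ N]` has no zero divisors
then `K[G]` has none.  `free_kernel_df`: the same for direct finiteness.
-/

namespace Vale.Agent.Lib.P201.Free

open Vale.Agent.Lib.P201

theorem free_kernel {K : Type*} [CommRing K] {X : Type*} {G : Type*} [Group G]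
    (ι : FreeGroup X →* G) (hι : Function.Injective ι) (N : Subgroup G) [N.Normal]
    (hN : N = ι.range)
    (hQ : ∀ a b : MonoidAlgebra K (G ⧸ N), a * b = 0 → a = 0 ∨ b = 0) :
    ∀ a b : MonoidAlgebra K G, a * b = 0 → a = 0 ∨ b = 0 :=
  free_kernel_of_lemmaC (fun P h0 hD => H40.lemmaC K P h0 hD) ι hι N hN hQ

theorem free_kernel_df {K : Type*} [CommRing K] {X : Type*} {G : Type*} [Group G]
    (ι : FreeGroup X →* G) (hι : Function.Injective ι) (N : Subgroup G) [N.Normal]
    (hN : N = ι.range)
    (hQ : ∀ a b : MonoidAlgebra K (G ⧸ N), a * b = 1 → b * a = 1) :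
    ∀ a b : MonoidAlgebra K G, a * b = 1 → b * a = 1 :=
  free_kernel_df_of_lemmaC (fun P h0 hD => H40.lemmaC K P h0 hD) ι hι N hN hQ

/-- The form with `IsFreeGroup`: a normal subgroup which is a free group. -/
theorem free_kernel_isFreeGroup {K : Type*} [CommRing K] {G : Type*} [Group G]
    (N : Subgroup G) [N.Normal] [IsFreeGroup N]
    (hQ : ∀ a b : MonoidAlgebra K (G ⧸ N), a * b = 0 → a = 0 ∨ b = 0) :
    ∀ a b : MonoidAlgebra K G, a * b = 0 → a = 0 ∨ b = 0 := by
  refine free_kernel (X := IsFreeGroup.Generators N)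
    (N.subtype.comp (IsFreeGroup.toFreeGroup N).symm.toMonoidHom) ?_ N ?_ hQ
  · intro a b hab
    have h1 : (IsFreeGroup.toFreeGroup N).symm a = (IsFreeGroup.toFreeGroup N).symm b :=
      Subtype.ext hab
    exact (IsFreeGroup.toFreeGroup N).symm.injective h1
  · ext g
    constructor
    · intro hg
      refine ⟨IsFreeGroup.toFreeGroup N ⟨g, hg⟩, ?_⟩
      simp
    · rintro ⟨w, rfl⟩
      exact ((IsFreeGroup.toFreeGroup N).symm w).2

end Vale.Agent.Lib.P201.Free
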