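import Mathlib

/-!
# The zero-divisor conjecture passes up extensions with infinite cyclic kernel

`K` a ring, `G` a group, `N = ⟨z⟩` an infinite cyclic normal subgroup of `G`.  If `K[G ⧸ N]` has no
zero divisors, then `K[G]` has no zero divisors.

Proof: `w = z - 1` is a left non-zero-divisor of `K[G]`, generates the kernel `J` of
`K[G] → K[G ⧸ N]`, the intersection of the `w ^ m K[G]` is zero, and `a w = w τ(a)` for a map `τ`
preserving the complement of `J`.  So every nonzero `a` is `w ^ m a'` with `a' ∉ J`, and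
`(w ^ m a') (w ^ n b') = w ^ (m + n) (τ ^ n a') b'` with `(τ ^ n a') b' ∉ J`.
-/

namespace Vale.Agent.Lib.P201.H60

section Basic

variable {K : Type*} [Ring K] {G : Type*} [Group G]

/-- `wz z = z - 1` in `K[G]`. -/
noncomputable def wz (K : Type*) [Ring K] {G : Type*} [Group G] (z : G) : MonoidAlgebra K G :=
  MonoidAlgebra.single z (1 : K) - 1

theorem exists_coeff_ne_zero (x : MonoidAlgebra K G) (hx : x ≠ 0) : ∃ g : G, x.coeff g ≠ 0 := by
  by_contra hall
  push Not at hall
  apply hx
  apply MonoidAlgebra.coeff_injective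
  ext g
  simpa using hall g

theorem coeff_wz_mul (z : G) (y : MonoidAlgebra K G) (h : G) :
    (wz K z * y).coeff h = y.coeff (z⁻¹ * h) - y.coeff h := by
  rw [wz, sub_mul, one_mul, MonoidAlgebra.coeff_sub, Finsupp.sub_apply,
    MonoidAlgebra.coeff_single_mul_apply, one_mul]

theorem coeff_wz_mul_zpow (z : G) (y : MonoidAlgebra K G) (g : G) (j : ℤ) :
    (wz K z * y).coeff (z ^ j * g) = y.coeff (z ^ (j - 1) * g) - y.coeff (z ^ j * g) := by
  rw [coeff_wz_mul]
  have e : z⁻¹ * (z ^ j * g) = z ^ (j - 1) * g := by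
    rw [← mul_assoc, sub_eq_neg_add, zpow_add, zpow_neg_one]
  rw [e]

/-- On the coset `⟨z⟩ g`, the support of `y` lies in the exponent interval `[a, b]`. -/
def SuppIn (z : G) (y : MonoidAlgebra K G) (g : G) (a b : ℤ) : Prop :=
  ∀ k : ℤ, y.coeff (z ^ k * g) ≠ 0 → a ≤ k ∧ k ≤ b

theorem not_forall_coeff_ne (z : G) (hz : ¬ IsOfFinOrder z) (y : MonoidAlgebra K G) (g : G)
    (ι : ℕ → ℤ) (hι : Function.Injective ι) : ¬ ∀ j : ℕ, y.coeff (z ^ (ι j) * g) ≠ 0 := by
  intro h
  have hinj : Function.Injective (fun j : ℕ => z ^ (ι j) * g) := by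
    intro i j hij
    have h1 : z ^ (ι i) = z ^ (ι j) := mul_right_cancel hij
    exact hι ((injective_zpow_iff_not_isOfFinOrder.mpr hz) h1)
  have hfin : (y.coeff.support : Set G).Finite := Finset.finite_toSet _
  exact Set.infinite_of_injective_forall_mem hinj
    (fun j => Finsupp.mem_support_iff.mpr (h j)) hfin

/-- Dividing by `w` shrinks the support interval on every coset. -/
theorem suppIn_of_wz_mul (z : G) (hz : ¬ IsOfFinOrder z) (y : MonoidAlgebra K G) (g : G)
    (a b : ℤ) (h : SuppIn z (wz K z * y) g a b) : SuppIn z y g a (b - 1) := by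
  intro k hk
  constructor
  · by_contra hlt
    push Not at hlt
    have hconst : ∀ j : ℕ, y.coeff (z ^ (k - (j : ℤ)) * g) = y.coeff (z ^ k * g) := by
      intro j
      induction j with
      | zero => simp
      | succ j ih =>
        have h0 : (wz K z * y).coeff (z ^ (k - (j : ℤ)) * g) = 0 := by
          by_contra hne
          have := (h _ hne).1
          omega
        rw [coeff_wz_mul_zpow] at h0
        have e : k - (j : ℤ) - 1 = k - ((j + 1 : ℕ) : ℤ) := by push_cast; ring
        rw [e] at h0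
        rw [sub_eq_zero.mp h0, ih]
    exact not_forall_coeff_ne z hz y g (fun j : ℕ => k - (j : ℤ))
      (by intro i j hij; simpa using hij) (fun j => by rw [hconst j]; exact hk)
  · by_contra hgt
    push Not at hgt
    have hconst : ∀ j : ℕ, y.coeff (z ^ (k + (j : ℤ)) * g) = y.coeff (z ^ k * g) := by
      intro j
      induction j with
      | zero => simp
      | succ j ih =>
        have h0 : (wz K z * y).coeff (z ^ (k + (j : ℤ) + 1) * g) = 0 := by
          by_contra hne
          have := (h _ hne).2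
          omega
        rw [coeff_wz_mul_zpow] at h0
        have e1 : k + (j : ℤ) + 1 - 1 = k + (j : ℤ) := by ring
        have e2 : k + ((j + 1 : ℕ) : ℤ) = k + (j : ℤ) + 1 := by push_cast; ring
        rw [e1] at h0
        rw [e2, ← sub_eq_zero.mp h0, ih]
    exact not_forall_coeff_ne z hz y g (fun j : ℕ => k + (j : ℤ))
      (by intro i j hij; simpa using hij) (fun j => by rw [hconst j]; exact hk)

theorem suppIn_of_pow_mul (z : G) (hz : ¬ IsOfFinOrder z) (m : ℕ) (y : MonoidAlgebra K G)
    (g : G) (a b : ℤ) (h : SuppIn z (wz K z ^ m * y) g a b) : SuppIn z y g a (b - (m : ℤ)) := by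
  induction m generalizing b with
  | zero => simpa using h
  | succ m ih =>
    rw [pow_succ', mul_assoc] at h
    have h1 := suppIn_of_wz_mul z hz _ g a b h
    have h2 := ih (b - 1) h1
    have e : b - 1 - (m : ℤ) = b - ((m + 1 : ℕ) : ℤ) := by push_cast; ring
    rwa [e] at h2

theorem coset_zero_wz_mul (z : G) (y : MonoidAlgebra K G) (g : G)
    (h : ∀ k : ℤ, y.coeff (z ^ k * g) = 0) : ∀ k : ℤ, (wz K z * y).coeff (z ^ k * g) = 0 := by
  intro k
  rw [coeff_wz_mul_zpow, h, h, sub_zero]

theorem coset_zero_pow_mul (z : G) (m : ℕ) (y : MonoidAlgebra K G) (g : G)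
    (h : ∀ k : ℤ, y.coeff (z ^ k * g) = 0) :
    ∀ k : ℤ, (wz K z ^ m * y).coeff (z ^ k * g) = 0 := by
  induction m with
  | zero => simpa using h
  | succ m ih =>
    rw [pow_succ', mul_assoc]
    exact coset_zero_wz_mul z _ g ih

theorem exists_suppIn (z : G) (hz : ¬ IsOfFinOrder z) (x : MonoidAlgebra K G) (g : G) :
    ∃ B : ℤ, SuppIn z x g (-B) B := by
  classical
  have hinj : Function.Injective (fun k : ℤ => z ^ k * g) := fun i j hij =>
    (injective_zpow_iff_not_isOfFinOrder.mpr hz) (mul_right_cancel hij)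
  refine ⟨((x.coeff.support.preimage (fun k : ℤ => z ^ k * g) hinj.injOn).sup
    (fun k : ℤ => k.natAbs) : ℕ), ?_⟩
  intro k hk
  have hmem : k ∈ x.coeff.support.preimage (fun k : ℤ => z ^ k * g) hinj.injOn := by
    rw [Finset.mem_preimage]
    exact Finsupp.mem_support_iff.mpr hk
  have hle : k.natAbs ≤ (x.coeff.support.preimage (fun k : ℤ => z ^ k * g) hinj.injOn).sup
      (fun k : ℤ => k.natAbs) := Finset.le_sup (f := fun k : ℤ => k.natAbs) hmem
  constructor <;> omega

/-- Step (3): the intersection of the `w ^ m K[G]` is zero. -/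
theorem eq_zero_of_forall_pow (z : G) (hz : ¬ IsOfFinOrder z) (x : MonoidAlgebra K G)
    (h : ∀ m : ℕ, ∃ y : MonoidAlgebra K G, x = wz K z ^ m * y) : x = 0 := by
  by_contra hne
  obtain ⟨g, hg⟩ := exists_coeff_ne_zero x hne
  obtain ⟨B, hB⟩ := exists_suppIn z hz x g
  have hg0 : x.coeff (z ^ (0 : ℤ) * g) ≠ 0 := by simpa using hg
  have hB0 : 0 ≤ B := by
    have := hB 0 hg0
    omega
  obtain ⟨y, hy⟩ := h (2 * B + 1).toNat
  have h1 : SuppIn z y g (-B) (B - ((2 * B + 1).toNat : ℤ)) :=
    suppIn_of_pow_mul z hz _ y g _ _ (hy ▸ hB)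
  have hv : ∀ k : ℤ, y.coeff (z ^ k * g) = 0 := by
    intro k
    by_contra hk
    have := h1 k hk
    omega
  have h2 := coset_zero_pow_mul z (2 * B + 1).toNat y g hv 0
  rw [← hy] at h2
  exact hg0 h2

/-- Step (2): `w` is a left non-zero-divisor. -/
theorem wz_mul_eq_zero (z : G) (hz : ¬ IsOfFinOrder z) (y : MonoidAlgebra K G)
    (h : wz K z * y = 0) : y = 0 := by
  by_contra hne
  obtain ⟨g, hg⟩ := exists_coeff_ne_zero y hne
  have hs : SuppIn z (wz K z * y) g 1 0 := by
    intro k hk
    rw [h] at hk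
    simp at hk
  have hg0 : y.coeff (z ^ (0 : ℤ) * g) ≠ 0 := by simpa using hg
  have := suppIn_of_wz_mul z hz y g 1 0 hs 0 hg0
  omega

theorem wz_pow_mul_eq_zero (z : G) (hz : ¬ IsOfFinOrder z) (m : ℕ) (y : MonoidAlgebra K G)
    (h : wz K z ^ m * y = 0) : y = 0 := by
  induction m with
  | zero => simpa using h
  | succ m ih =>
    rw [pow_succ', mul_assoc] at h
    exact ih (wz_mul_eq_zero z hz _ h)

end Basic

section Kernel

variable {K : Type*} [Ring K] {G : Type*} [Group G]

theorem single_zpow_mul_wz (z : G) (j : ℤ) :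
    MonoidAlgebra.single (z ^ j) (1 : K) * wz K z = wz K z * MonoidAlgebra.single (z ^ j) (1 : K) := by
  rw [wz, mul_sub, sub_mul, mul_one, one_mul, MonoidAlgebra.single_mul_single,
    MonoidAlgebra.single_mul_single, mul_one, (Commute.zpow_self z j).eq]

theorem single_npow_sub_one (z : G) (n : ℕ) :
    ∃ u : MonoidAlgebra K G, MonoidAlgebra.single (z ^ n) (1 : K) - 1 = wz K z * u := by
  induction n with
  | zero => exact ⟨0, by rw [pow_zero, mul_zero, MonoidAlgebra.one_def, sub_self]⟩
  | succ n ih =>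
    obtain ⟨u, hu⟩ := ih
    refine ⟨MonoidAlgebra.single (z ^ n) (1 : K) + u, ?_⟩
    rw [mul_add, ← hu, wz, sub_mul, one_mul, MonoidAlgebra.single_mul_single, mul_one,
      ← pow_succ']
    abel

theorem single_zpow_sub_one (z : G) (k : ℤ) :
    ∃ u : MonoidAlgebra K G, MonoidAlgebra.single (z ^ k) (1 : K) - 1 = wz K z * u := by
  rcases Int.eq_nat_or_neg k with ⟨n, rfl | rfl⟩
  · obtain ⟨u, hu⟩ := single_npow_sub_one (K := K) z n
    exact ⟨u, by rw [zpow_natCast]; exact hu⟩
  · obtain ⟨u, hu⟩ := single_npow_sub_one (K := K) z n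
    refine ⟨-(MonoidAlgebra.single (z ^ (-(n : ℤ))) (1 : K) * u), ?_⟩
    rw [mul_neg, ← mul_assoc, ← single_zpow_mul_wz, mul_assoc, ← hu, mul_sub, mul_one,
      MonoidAlgebra.single_mul_single, mul_one, zpow_neg, zpow_natCast, inv_mul_cancel,
      MonoidAlgebra.one_def]
    abel

theorem mapDomain_out_eq_zero (N : Subgroup G) (x : MonoidAlgebra K G)
    (hx : MonoidAlgebra.mapDomain (fun g : G => (QuotientGroup.mk g : G ⧸ N)) x = 0) :
    MonoidAlgebra.mapDomain (fun g : G => Quotient.out (QuotientGroup.mk g : G ⧸ N)) x = 0 := by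
  have h2 : MonoidAlgebra.mapDomain
      (fun g : G => Quotient.out (QuotientGroup.mk g : G ⧸ N)) x
      = MonoidAlgebra.mapDomain (fun c : G ⧸ N => Quotient.out c)
        (MonoidAlgebra.mapDomain (fun g : G => (QuotientGroup.mk g : G ⧸ N)) x) := by
    apply MonoidAlgebra.coeff_injective
    simp only [MonoidAlgebra.mapDomain, MonoidAlgebra.coeff_ofCoeff]
    rw [← Finsupp.mapDomain_comp]
    rfl
  rw [h2, hx, MonoidAlgebra.mapDomain_zero]

/-- Step (1): the kernel of `K[G] → K[G ⧸ N]` consists of left multiples of `w`. -/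
theorem exists_eq_wz_mul_of_ker (z : G) (N : Subgroup G) [N.Normal] (hN : N = Subgroup.zpowers z)
    (x : MonoidAlgebra K G)
    (hx : MonoidAlgebra.mapDomain (fun g : G => (QuotientGroup.mk g : G ⧸ N)) x = 0) :
    ∃ y : MonoidAlgebra K G, x = wz K z * y := by
  have key : ∀ y : MonoidAlgebra K G, ∃ c : MonoidAlgebra K G,
      y - MonoidAlgebra.mapDomain
        (fun g : G => Quotient.out (QuotientGroup.mk g : G ⧸ N)) y = wz K z * c := by
    intro y
    induction y using MonoidAlgebra.induction_linear with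
    | zero =>
      exact ⟨0, by rw [MonoidAlgebra.mapDomain_zero, sub_zero, mul_zero]⟩
    | add y₁ y₂ h₁ h₂ =>
      obtain ⟨c₁, hc₁⟩ := h₁
      obtain ⟨c₂, hc₂⟩ := h₂
      refine ⟨c₁ + c₂, ?_⟩
      rw [MonoidAlgebra.mapDomain_add, mul_add, ← hc₁, ← hc₂]
      abel
    | single g r =>
      rw [MonoidAlgebra.mapDomain_single]
      set s : G := Quotient.out (QuotientGroup.mk g : G ⧸ N) with hs
      have hmk : (QuotientGroup.mk s : G ⧸ N) = QuotientGroup.mk g := Quotient.out_eq _
      have hz1 : s⁻¹ * g ∈ N := QuotientGroup.eq.mp hmk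
      have hz2 : g * s⁻¹ ∈ N := (Subgroup.Normal.mem_comm_iff inferInstance).mp hz1
      rw [hN, Subgroup.mem_zpowers_iff] at hz2
      obtain ⟨k, hk⟩ := hz2
      obtain ⟨u, hu⟩ := single_zpow_sub_one (K := K) z k
      refine ⟨u * MonoidAlgebra.single s r, ?_⟩
      rw [← mul_assoc, ← hu, hk, sub_mul, one_mul, MonoidAlgebra.single_mul_single, one_mul,
        inv_mul_cancel_right]
  obtain ⟨c, hc⟩ := key x
  rw [mapDomain_out_eq_zero N x hx, sub_zero] at hc
  exact ⟨c, hc⟩

/-- Conjugation by any `g` fixes or inverts the generator of an infinite cyclic normal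
subgroup. -/
theorem conj_generator (z : G) (N : Subgroup G) [N.Normal] (hN : N = Subgroup.zpowers z)
    (hz : ¬ IsOfFinOrder z) (g : G) : g * z = z * g ∨ g * z = z⁻¹ * g := by
  have hzN : z ∈ N := by rw [hN]; exact Subgroup.mem_zpowers z
  have h1 : g * z * g⁻¹ ∈ N := Subgroup.Normal.conj_mem inferInstance z hzN g
  have h2 : g⁻¹ * z * g ∈ N := by
    have := Subgroup.Normal.conj_mem (inferInstance : N.Normal) z hzN g⁻¹
    simpa using this
  rw [hN, Subgroup.mem_zpowers_iff] at h1 h2
  obtain ⟨k, hk⟩ := h1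
  obtain ⟨l, hl⟩ := h2
  have hpow : z ^ (k * l) = z ^ (1 : ℤ) := by
    rw [zpow_mul, hk, conj_zpow, hl, zpow_one]
    group
  have hkl : k * l = 1 := (injective_zpow_iff_not_isOfFinOrder.mpr hz) hpow
  rcases Int.eq_one_or_neg_one_of_mul_eq_one hkl with rfl | rfl
  · left
    rw [zpow_one] at hk
    calc g * z = g * z * g⁻¹ * g := by group
      _ = z * g := by rw [← hk]
  · right
    rw [zpow_neg_one] at hk
    calc g * z = g * z * g⁻¹ * g := by group
      _ = z⁻¹ * g := by rw [← hk]

end Kernel

section Twist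

variable {K : Type*} [Ring K] {G : Type*} [Group G]

open Classical in
/-- The sign twist: `g ↦ g` if `g` commutes with `z`, `g ↦ -g` otherwise. -/
noncomputable def sigma (K : Type*) [Ring K] {G : Type*} [Group G] (z : G) :
    MonoidAlgebra K G →+ MonoidAlgebra K G :=
  (Finsupp.liftAddHom (fun g : G =>
      if g * z = z * g then MonoidAlgebra.singleAddHom g
      else -(MonoidAlgebra.singleAddHom g : K →+ MonoidAlgebra K G))).comp
    (MonoidAlgebra.coeffAddEquiv (R := K) (M := G)).toAddMonoidHom

open Classical in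
/-- The map `τ` with `a * w = w * τ a`: `g ↦ g` if `g` commutes with `z`, `g ↦ -z⁻¹ g`
otherwise. -/
noncomputable def tau (K : Type*) [Ring K] {G : Type*} [Group G] (z : G) :
    MonoidAlgebra K G →+ MonoidAlgebra K G :=
  (Finsupp.liftAddHom (fun g : G =>
      if g * z = z * g then MonoidAlgebra.singleAddHom g
      else -(MonoidAlgebra.singleAddHom (z⁻¹ * g) : K →+ MonoidAlgebra K G))).comp
    (MonoidAlgebra.coeffAddEquiv (R := K) (M := G)).toAddMonoidHom

theorem sigma_single_comm (z g : G) (h : g * z = z * g) (r : K) :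
    sigma K z (MonoidAlgebra.single g r) = MonoidAlgebra.single g r := by
  classical
  simp [sigma, h]

theorem sigma_single_not (z g : G) (h : ¬ g * z = z * g) (r : K) :
    sigma K z (MonoidAlgebra.single g r) = -MonoidAlgebra.single g r := by
  classical
  simp [sigma, h]

theorem tau_single_comm (z g : G) (h : g * z = z * g) (r : K) :
    tau K z (MonoidAlgebra.single g r) = MonoidAlgebra.single g r := by
  classical
  simp [tau, h]

theorem tau_single_not (z g : G) (h : ¬ g * z = z * g) (r : K) :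
    tau K z (MonoidAlgebra.single g r) = -MonoidAlgebra.single (z⁻¹ * g) r := by
  classical
  simp [tau, h]

/-- Step (4a): `a * w = w * τ a`. -/
theorem mul_wz (z : G) (N : Subgroup G) [N.Normal] (hN : N = Subgroup.zpowers z)
    (hz : ¬ IsOfFinOrder z) (a : MonoidAlgebra K G) : a * wz K z = wz K z * tau K z a := by
  induction a using MonoidAlgebra.induction_linear with
  | zero => rw [zero_mul, map_zero, mul_zero]
  | add a₁ a₂ h₁ h₂ => rw [add_mul, map_add, mul_add, h₁, h₂]
  | single g r =>
    by_cases hc : g * z = z * g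
    · rw [tau_single_comm z g hc, wz, mul_sub, sub_mul, mul_one, one_mul,
        MonoidAlgebra.single_mul_single, MonoidAlgebra.single_mul_single, mul_one, one_mul, hc]
    · have hinv : g * z = z⁻¹ * g := (conj_generator z N hN hz g).resolve_left hc
      rw [tau_single_not z g hc, wz, mul_sub, sub_mul, mul_one, one_mul, mul_neg,
        MonoidAlgebra.single_mul_single, MonoidAlgebra.single_mul_single, mul_one, one_mul, hinv,
        mul_inv_cancel_left]
      abel

theorem sigma_sigma (z : G) (a : MonoidAlgebra K G) : sigma K z (sigma K z a) = a := by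
  induction a using MonoidAlgebra.induction_linear with
  | zero => rw [map_zero, map_zero]
  | add a₁ a₂ h₁ h₂ => rw [map_add, map_add, h₁, h₂]
  | single g r =>
    by_cases hc : g * z = z * g
    · rw [sigma_single_comm z g hc, sigma_single_comm z g hc]
    · rw [sigma_single_not z g hc, map_neg, sigma_single_not z g hc, neg_neg]

theorem sigma_wz_mul (z : G) (y : MonoidAlgebra K G) :
    sigma K z (wz K z * y) = wz K z * sigma K z y := by
  induction y using MonoidAlgebra.induction_linear with
  | zero => rw [mul_zero, map_zero, mul_zero]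
  | add y₁ y₂ h₁ h₂ => rw [mul_add, map_add, map_add, mul_add, h₁, h₂]
  | single g r =>
    have hw : wz K z * MonoidAlgebra.single g r
        = MonoidAlgebra.single (z * g) r - MonoidAlgebra.single g r := by
      rw [wz, sub_mul, one_mul, MonoidAlgebra.single_mul_single, one_mul]
    by_cases hc : g * z = z * g
    · have hc' : z * g * z = z * (z * g) := by rw [mul_assoc, hc]
      rw [sigma_single_comm z g hc, hw, map_sub, sigma_single_comm z _ hc',
        sigma_single_comm z g hc]
    · have hc' : ¬ z * g * z = z * (z * g) := by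
        intro h
        apply hc
        rw [mul_assoc] at h
        exact mul_left_cancel h
      rw [sigma_single_not z g hc, mul_neg, hw, map_sub, sigma_single_not z _ hc',
        sigma_single_not z g hc]
      abel

end Twist

section Main

variable {K : Type*} [Ring K] {G : Type*} [Group G]

/-- The quotient map `K[G] → K[G ⧸ N]` as a ring homomorphism. -/
noncomputable def quot (K : Type*) [Ring K] {G : Type*} [Group G] (N : Subgroup G) [N.Normal] :
    MonoidAlgebra K G →+* MonoidAlgebra K (G ⧸ N) :=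
  MonoidAlgebra.mapDomainRingHom K (QuotientGroup.mk' N)

theorem quot_single (N : Subgroup G) [N.Normal] (g : G) (r : K) :
    quot K N (MonoidAlgebra.single g r)
      = MonoidAlgebra.single (QuotientGroup.mk g : G ⧸ N) r := by
  change MonoidAlgebra.mapDomain (fun g : G => (QuotientGroup.mk g : G ⧸ N))
    (MonoidAlgebra.single g r) = _
  rw [MonoidAlgebra.mapDomain_single]

theorem quot_wz (z : G) (N : Subgroup G) [N.Normal] (hN : N = Subgroup.zpowers z) :
    quot K N (wz K z) = 0 := by
  have hzN : z ∈ N := by rw [hN]; exact Subgroup.mem_zpowers z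
  have h1 : (QuotientGroup.mk z : G ⧸ N) = 1 := (QuotientGroup.eq_one_iff z).mpr hzN
  rw [wz, map_sub, map_one, quot_single, h1, MonoidAlgebra.one_def, sub_self]

theorem exists_eq_wz_mul_of_quot (z : G) (N : Subgroup G) [N.Normal]
    (hN : N = Subgroup.zpowers z) (x : MonoidAlgebra K G) (hx : quot K N x = 0) :
    ∃ y : MonoidAlgebra K G, x = wz K z * y :=
  exists_eq_wz_mul_of_ker z N hN x hx

theorem quot_tau (z : G) (N : Subgroup G) [N.Normal] (hN : N = Subgroup.zpowers z)
    (a : MonoidAlgebra K G) : quot K N (tau K z a) = quot K N (sigma K z a) := by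
  have hzN : z ∈ N := by rw [hN]; exact Subgroup.mem_zpowers z
  induction a using MonoidAlgebra.induction_linear with
  | zero => simp only [map_zero]
  | add a₁ a₂ h₁ h₂ => rw [map_add, map_add, map_add, map_add, h₁, h₂]
  | single g r =>
    by_cases hc : g * z = z * g
    · rw [tau_single_comm z g hc, sigma_single_comm z g hc]
    · rw [tau_single_not z g hc, sigma_single_not z g hc, map_neg, map_neg, quot_single,
        quot_single]
      have hmk : (QuotientGroup.mk (z⁻¹ * g) : G ⧸ N) = QuotientGroup.mk g := by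
        rw [QuotientGroup.mk_mul, QuotientGroup.mk_inv, (QuotientGroup.eq_one_iff z).mpr hzN,
          inv_one, one_mul]
      rw [hmk]

/-- Step (4b): `σ` preserves the complement of the kernel. -/
theorem quot_sigma_ne (z : G) (N : Subgroup G) [N.Normal] (hN : N = Subgroup.zpowers z)
    (a : MonoidAlgebra K G) (ha : quot K N a ≠ 0) : quot K N (sigma K z a) ≠ 0 := by
  intro h0
  obtain ⟨y, hy⟩ := exists_eq_wz_mul_of_quot z N hN _ h0
  apply ha
  have e : a = wz K z * sigma K z y := by
    rw [← sigma_wz_mul, ← hy, sigma_sigma]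
  rw [e, map_mul, quot_wz z N hN, zero_mul]

/-- Step (4): `a * w ^ n = w ^ n * a'` with `a'` outside the kernel if `a` is. -/
theorem exists_comm_pow (z : G) (N : Subgroup G) [N.Normal] (hN : N = Subgroup.zpowers z)
    (hz : ¬ IsOfFinOrder z) (n : ℕ) (a : MonoidAlgebra K G) :
    ∃ a' : MonoidAlgebra K G, a * wz K z ^ n = wz K z ^ n * a' ∧
      (quot K N a ≠ 0 → quot K N a' ≠ 0) := by
  induction n with
  | zero => exact ⟨a, by rw [pow_zero, mul_one, one_mul], fun h => h⟩
  | succ n ih =>
    obtain ⟨a', hcomm, hne⟩ := ih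
    refine ⟨tau K z a', ?_, ?_⟩
    · rw [pow_succ, ← mul_assoc, hcomm, mul_assoc, mul_wz z N hN hz a', mul_assoc]
    · intro h
      rw [quot_tau z N hN]
      exact quot_sigma_ne z N hN a' (hne h)

/-- Every nonzero element is `w ^ m * y` with `y` outside the kernel. -/
theorem exists_dec (z : G) (N : Subgroup G) [N.Normal] (hN : N = Subgroup.zpowers z)
    (hz : ¬ IsOfFinOrder z) (x : MonoidAlgebra K G) (hx : x ≠ 0) :
    ∃ (m : ℕ) (y : MonoidAlgebra K G), x = wz K z ^ m * y ∧ quot K N y ≠ 0 := by
  by_contra hno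
  push Not at hno
  have hall : ∀ m : ℕ, ∃ y : MonoidAlgebra K G, x = wz K z ^ m * y := by
    intro m
    induction m with
    | zero => exact ⟨x, by rw [pow_zero, one_mul]⟩
    | succ m ih =>
      obtain ⟨y, hy⟩ := ih
      obtain ⟨y', hy'⟩ := exists_eq_wz_mul_of_quot z N hN y (hno m y hy)
      exact ⟨y', by rw [hy, hy', ← mul_assoc, ← pow_succ]⟩
  exact hx (eq_zero_of_forall_pow z hz x hall)

/-- **Infinite cyclic kernels.** `N = ⟨z⟩` an infinite cyclic normal subgroup of `G`.  If
`K[G ⧸ N]` has no zero divisors, then `K[G]` has no zero divisors. -/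
theorem mul_eq_zero_of_quotient (z : G) (N : Subgroup G) [N.Normal]
    (hN : N = Subgroup.zpowers z) (hz : ¬ IsOfFinOrder z)
    (hQ : ∀ a b : MonoidAlgebra K (G ⧸ N), a * b = 0 → a = 0 ∨ b = 0) :
    ∀ a b : MonoidAlgebra K G, a * b = 0 → a = 0 ∨ b = 0 := by
  intro a b hab
  by_contra hcon
  push Not at hcon
  obtain ⟨ha, hb⟩ := hcon
  obtain ⟨m, a', rfl, ha'⟩ := exists_dec z N hN hz a ha
  obtain ⟨n, b', rfl, hb'⟩ := exists_dec z N hN hz b hb
  obtain ⟨a'', hcomm, ha''⟩ := exists_comm_pow z N hN hz n a'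
  have h1 : wz K z ^ (m + n) * (a'' * b') = 0 := by
    rw [← hab, pow_add]
    calc wz K z ^ m * wz K z ^ n * (a'' * b')
        = wz K z ^ m * (wz K z ^ n * a'') * b' := by simp only [mul_assoc]
      _ = wz K z ^ m * (a' * wz K z ^ n) * b' := by rw [hcomm]
      _ = wz K z ^ m * a' * (wz K z ^ n * b') := by simp only [mul_assoc]
  have h2 : a'' * b' = 0 := wz_pow_mul_eq_zero z hz _ _ h1
  have h3 : quot K N a'' * quot K N b' = 0 := by rw [← map_mul, h2, map_zero]
  rcases hQ _ _ h3 with h | h
  · exact ha'' ha' h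
  · exact hb' h

end Main

end Vale.Agent.Lib.P201.H60
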