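import Mathlib
import Vale.Agent.Lib.P201.helper60.CyclicKernel

/-!
# The zero-divisor conjecture passes up extensions whose kernel has a normal series with
infinite cyclic factors

Iteration of `mul_eq_zero_of_quotient`: if `⊥ = H 0 ≤ H 1 ≤ ... ≤ H k = N` are subgroups of `G`,
all normal in `G`, with `H (i + 1)` generated by `H i` and an element `z i` no nontrivial power of
which lies in `H i` (so `H (i + 1) ⧸ H i` is infinite cyclic), and `K[G ⧸ N]` has no zero divisors,
then `K[G]` has no zero divisors.
-/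

namespace Vale.Agent.Lib.P201.H60

universe u v

theorem noZero_of_injective {A B : Type*} [Ring A] [Ring B] (f : A →+* B)
    (hf : Function.Injective f) (hB : ∀ a b : B, a * b = 0 → a = 0 ∨ b = 0) :
    ∀ a b : A, a * b = 0 → a = 0 ∨ b = 0 := by
  intro a b hab
  rcases hB (f a) (f b) (by rw [← map_mul, hab, map_zero]) with h | h
  · left
    exact hf (by rw [h, map_zero])
  · right
    exact hf (by rw [h, map_zero])

theorem mul_eq_zero_of_series (K : Type u) [Ring K] (k : ℕ) :
    ∀ (G : Type v) [Group G] (H : ℕ → Subgroup G) (z : ℕ → G) (N : Subgroup G) [N.Normal],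
      H 0 = ⊥ → H k = N → (∀ i, i ≤ k → (H i).Normal) →
      (∀ i, i < k → H (i + 1) = H i ⊔ Subgroup.zpowers (z i)) →
      (∀ i, i < k → ∀ n : ℤ, z i ^ n ∈ H i → n = 0) →
      (∀ a b : MonoidAlgebra K (G ⧸ N), a * b = 0 → a = 0 ∨ b = 0) →
      ∀ a b : MonoidAlgebra K G, a * b = 0 → a = 0 ∨ b = 0 := by
  induction k with
  | zero =>
    intro G _ H z N _ h0 hk _ _ _ hQ
    have hN : N = ⊥ := by rw [← hk, h0]
    have hinj : Function.Injective (QuotientGroup.mk' N) := by
      rw [← MonoidHom.ker_eq_bot_iff, QuotientGroup.ker_mk', hN]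
    refine noZero_of_injective (quot K N) ?_ hQ
    intro x y hxy
    exact MonoidAlgebra.mapDomain_injective hinj hxy
  | succ k ih =>
    intro G _ H z N _ h0 hk hnorm hsup hinf hQ
    have hN1 : (H 1).Normal := hnorm 1 (by omega)
    have hH1 : H 1 = Subgroup.zpowers (z 0) := by
      rw [hsup 0 (by omega), h0, bot_sup_eq]
    have hz0 : ¬ IsOfFinOrder (z 0) := by
      intro hfin
      obtain ⟨n, hn, hpow⟩ := isOfFinOrder_iff_pow_eq_one.mp hfin
      have h1 : z 0 ^ (n : ℤ) ∈ H 0 := by
        rw [h0, zpow_natCast, hpow]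
        exact Subgroup.one_mem _
      have := hinf 0 (by omega) (n : ℤ) h1
      omega
    have hmono : ∀ i, i ≤ k → H 1 ≤ H (i + 1) := by
      intro i hi
      induction i with
      | zero => exact le_rfl
      | succ i ihi =>
        refine (ihi (by omega)).trans ?_
        rw [hsup (i + 1) (by omega)]
        exact le_sup_left
    have h1N : H 1 ≤ N := hk ▸ hmono k le_rfl
    apply mul_eq_zero_of_quotient (z 0) (H 1) hH1 hz0
    refine ih (G ⧸ H 1) (fun i => (H (i + 1)).map (QuotientGroup.mk' (H 1)))
      (fun i => (QuotientGroup.mk (z (i + 1)) : G ⧸ H 1)) (N.map (QuotientGroup.mk' (H 1)))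
      ?_ ?_ ?_ ?_ ?_ ?_
    · exact QuotientGroup.map_mk'_self (H 1)
    · rw [hk]
    · intro i hi
      exact (hnorm (i + 1) (by omega)).map _ (QuotientGroup.mk'_surjective _)
    · intro i hi
      rw [hsup (i + 1) (by omega), Subgroup.map_sup, MonoidHom.map_zpowers]
      rfl
    · intro i hi n hn
      have hn' : (QuotientGroup.mk' (H 1)) (z (i + 1) ^ n)
          ∈ (H (i + 1)).map (QuotientGroup.mk' (H 1)) := by
        rw [map_zpow]
        exact hn
      obtain ⟨h, hh, heq⟩ := Subgroup.mem_map.mp hn'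
      have h3 : h⁻¹ * z (i + 1) ^ n ∈ H 1 := QuotientGroup.eq.mp heq
      have h2 : z (i + 1) ^ n ∈ H (i + 1) := by
        have h4 := (H (i + 1)).mul_mem hh (hmono i (by omega) h3)
        rwa [mul_inv_cancel_left] at h4
      exact hinf (i + 1) (by omega) n h2
    · exact noZero_of_injective
        (MonoidAlgebra.mapDomainRingEquiv K
          (QuotientGroup.quotientQuotientEquivQuotient (H 1) N h1N)).toRingHom
        (RingEquiv.injective _) hQ

end Vale.Agent.Lib.P201.H60
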